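import Vale.Agent.P113.Compiler

/-!
# P113: assembly
-/

open Set Function Filter Topology
open scoped ContDiff Real

namespace Vale.Agent.P113

/-- The content of Q1 for one viscosity `ν`. -/
def HaltingDetection (ν : ℝ) : Prop :=
  ∃ (a : T3) (O : Set T3) (F : ForceCompiler), IsOpen O ∧
    ∀ (M : Machine) (w : List M.Sym), ∃ (u : ℝ → T3 → V3) (p : ℝ → T3 → ℝ),
      SmoothField u ∧ SmoothField p ∧
      (∀ T, 0 < T → IsClassicalSolution ν (F.force M w) T u p) ∧
      (∀ T, 0 < T → ∀ v q, IsClassicalSolution ν (F.force M w) T v q →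
        ∀ t ∈ Icc 0 T, ∀ x, v t x = u t x ∧ q t x = p t x) ∧
      (∃ X, IsTrajectory u a X) ∧
      (∀ X, IsTrajectory u a X → ((∃ t, 0 ≤ t ∧ X t ∈ O) ↔ M.Halts w))

theorem frc_of_ge (ν r : ℝ) {t : ℝ} (ht : 1 ≤ t) (x : T3) :
    frc ν r t x = ![-((2 * π) ^ 2 * ν) * cosT 0 (x 1), 0, 0] := by
  have h1 : ∀ m k, D (m + 1) k t = 0 := fun m k => D_of_ge m k ht
  have h10 := h1 0
  have h20 := h1 1
  have h30 := h1 2
  norm_num at h10 h20 h30
  simp [frc, GF, cA, cB, cC, cE, oneD, h10, h20, h30]

/-- The force compiler for the viscosity `ν`. -/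
theorem exists_compiler {ν : ℝ} (hν : IsComputableReal ν) :
    ∃ F : ForceCompiler, ∀ M w, F.force M w = frc ν (haltReal (M.descr, w.map Fin.val)) := by
  obtain ⟨compile, hc, hc'⟩ := exists_compile (FD ν) (CR_FD hν)
  exact ⟨{
    compile := compile
    computable_compile := hc
    force := fun M w => frc ν (haltReal (M.descr, w.map Fin.val))
    smooth := fun M w => frc_smooth ν _
    effective := by
      intro M w α i t x y z ε ht hε
      have ht' : 0 ≤ rv t := by exact_mod_cast ht
      have hε' : 0 < rv ε := by exact_mod_cast hε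
      obtain ⟨q, hq, hq'⟩ := hc' (M.descr, w.map Fin.val) (α, (i : ℕ), t, x, y, z, ε) hε'
      refine ⟨q, hq, ?_⟩
      rw [FD_eq ν (M.descr, w.map Fin.val) α i t x y z ε ht']
      exact hq'
    T₀ := 1
    period := fun _ => 1
    period_pos := fun _ => one_pos
    periodic := fun M w t x ht => by
      rw [frc_of_ge _ _ ht, frc_of_ge _ _ (by linarith)]
    machine_only := fun M w w' t x ht => by
      rw [frc_of_ge _ _ ht, frc_of_ge _ _ ht] }, fun M w => rfl⟩

theorem haltingDetection {ν : ℝ} (h0 : 0 < ν) (hν : IsComputableReal ν) :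
    HaltingDetection ν := by
  obtain ⟨F, hF⟩ := exists_compiler hν
  refine ⟨0, detector, F, detector_open, fun M w => ?_⟩
  set r : ℝ := haltReal (M.descr, w.map Fin.val) with hr
  refine ⟨vel r, fun _ _ => 0, vel_smooth r, contDiff_const.contDiffOn, ?_, ?_,
    trajectory_exists r, ?_⟩
  · intro T _
    rw [hF]
    exact vel_isSolution ν r T
  · intro T hT v q hv t ht x
    rw [hF] at hv
    exact classical_unique h0.le hT hv (vel_isSolution ν r T) t ht x
  · intro X hX
    have key : M.Halts w ↔ ∃ k, haltAt (M.descr, w.map Fin.val) k = true := by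
      simp only [Machine.Halts, haltAt_iff]
    rw [key]
    constructor
    · rintro ⟨t, ht, hXt⟩
      by_contra hn
      have hr0 : r = 0 := haltReal_zero hn
      rw [hr0] at hX
      exact detect_zero hX ht hXt
    · intro hn
      exact detect_pos (haltReal_pos hn) (haltReal_le_one _) hX

end Vale.Agent.P113
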