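import Vale.Agent.P113.Defs

/-!
# P113: uniformly computable families of real numbers
-/

open Set Function

namespace Vale.Agent.P113

abbrev Q3 : Type := ℕ × ℕ × ℕ

/-! ### Rational arithmetic on codes -/

def qadd (p q : Q3) : Q3 :=
  (p.1 * (q.2.2 + 1) + q.1 * (p.2.2 + 1), p.2.1 * (q.2.2 + 1) + q.2.1 * (p.2.2 + 1),
    (p.2.2 + 1) * (q.2.2 + 1) - 1)

def qneg (p : Q3) : Q3 := (p.2.1, p.1, p.2.2)

def qmul (p q : Q3) : Q3 :=
  (p.1 * q.1 + p.2.1 * q.2.1, p.1 * q.2.1 + p.2.1 * q.1, (p.2.2 + 1) * (q.2.2 + 1) - 1)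

def qinv (p : Q3) : Q3 :=
  if p.2.1 < p.1 then (p.2.2 + 1, 0, p.1 - p.2.1 - 1)
  else if p.1 < p.2.1 then (0, p.2.2 + 1, p.2.1 - p.1 - 1) else (0, 0, 0)

def qnat (n : ℕ) : Q3 := (n, 0, 0)

/-- real value of a code -/
noncomputable abbrev rv (q : Q3) : ℝ := (ratVal q : ℝ)

theorem rv_def (q : Q3) : rv q = ((q.1 : ℝ) - q.2.1) / (q.2.2 + 1) := by
  simp [rv, ratVal]

private theorem cast_pred (a b : ℕ) :
    (((a + 1) * (b + 1) - 1 : ℕ) : ℝ) + 1 = ((a : ℝ) + 1) * (b + 1) := by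
  have h : 1 ≤ (a + 1) * (b + 1) := Nat.one_le_iff_ne_zero.mpr (by positivity)
  rw [Nat.cast_sub h]
  push_cast
  ring

theorem rv_qadd (p q : Q3) : rv (qadd p q) = rv p + rv q := by
  rw [rv_def, rv_def, rv_def]
  simp only [qadd]
  rw [cast_pred]
  have h1 : ((p.2.2 : ℝ) + 1) ≠ 0 := by positivity
  have h2 : ((q.2.2 : ℝ) + 1) ≠ 0 := by positivity
  field_simp
  push_cast
  ring

theorem rv_qneg (p : Q3) : rv (qneg p) = - rv p := by
  rw [rv_def, rv_def]
  simp only [qneg]
  ring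

theorem rv_qmul (p q : Q3) : rv (qmul p q) = rv p * rv q := by
  rw [rv_def, rv_def, rv_def]
  simp only [qmul]
  rw [cast_pred]
  have h1 : ((p.2.2 : ℝ) + 1) ≠ 0 := by positivity
  have h2 : ((q.2.2 : ℝ) + 1) ≠ 0 := by positivity
  field_simp
  push_cast
  ring

theorem rv_qinv (p : Q3) : rv (qinv p) = (rv p)⁻¹ := by
  obtain ⟨a, b, c⟩ := p
  simp only [qinv]
  split_ifs with h1 h2
  · rw [rv_def, rv_def]
    simp only
    have h3 : ((a - b - 1 : ℕ) : ℝ) + 1 = (a : ℝ) - b := by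
      rw [Nat.cast_sub (by omega), Nat.cast_sub (by omega)]
      push_cast; ring
    rw [h3]
    push_cast
    rw [inv_div, sub_zero]
  · rw [rv_def, rv_def]
    simp only
    have h3 : ((b - a - 1 : ℕ) : ℝ) + 1 = (b : ℝ) - a := by
      rw [Nat.cast_sub (by omega), Nat.cast_sub (by omega)]
      push_cast; ring
    rw [h3]
    push_cast
    rw [inv_div, zero_sub, ← neg_sub (b : ℝ) a, div_neg, neg_div]
  · have h3 : a = b := by omega
    subst h3
    rw [rv_def, rv_def]
    simp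

theorem rv_qnat (n : ℕ) : rv (qnat n) = n := by
  rw [rv_def]; simp [qnat]

theorem rv_zero : rv (0, 0, 0) = 0 := by rw [rv_def]; simp

theorem primrec_qadd : Primrec₂ qadd := by
  have p1 : Primrec (fun z : Q3 × Q3 => z.1.1) := Primrec.fst.comp Primrec.fst
  have p2 : Primrec (fun z : Q3 × Q3 => z.1.2.1) := Primrec.fst.comp (Primrec.snd.comp Primrec.fst)
  have p3 : Primrec (fun z : Q3 × Q3 => z.1.2.2) := Primrec.snd.comp (Primrec.snd.comp Primrec.fst)
  have q1 : Primrec (fun z : Q3 × Q3 => z.2.1) := Primrec.fst.comp Primrec.snd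
  have q2 : Primrec (fun z : Q3 × Q3 => z.2.2.1) := Primrec.fst.comp (Primrec.snd.comp Primrec.snd)
  have q3 : Primrec (fun z : Q3 × Q3 => z.2.2.2) := Primrec.snd.comp (Primrec.snd.comp Primrec.snd)
  have p3' : Primrec (fun z : Q3 × Q3 => z.1.2.2 + 1) := Primrec.succ.comp p3
  have q3' : Primrec (fun z : Q3 × Q3 => z.2.2.2 + 1) := Primrec.succ.comp q3
  refine Primrec.pair ?_ (Primrec.pair ?_ ?_)
  · exact Primrec.nat_add.comp (Primrec.nat_mul.comp p1 q3') (Primrec.nat_mul.comp q1 p3')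
  · exact Primrec.nat_add.comp (Primrec.nat_mul.comp p2 q3') (Primrec.nat_mul.comp q2 p3')
  · exact Primrec.nat_sub.comp (Primrec.nat_mul.comp p3' q3') (Primrec.const 1)

theorem primrec_qneg : Primrec qneg :=
  Primrec.pair (Primrec.fst.comp Primrec.snd)
    (Primrec.pair Primrec.fst (Primrec.snd.comp Primrec.snd))

theorem primrec_qmul : Primrec₂ qmul := by
  have p1 : Primrec (fun z : Q3 × Q3 => z.1.1) := Primrec.fst.comp Primrec.fst
  have p2 : Primrec (fun z : Q3 × Q3 => z.1.2.1) := Primrec.fst.comp (Primrec.snd.comp Primrec.fst)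
  have p3 : Primrec (fun z : Q3 × Q3 => z.1.2.2) := Primrec.snd.comp (Primrec.snd.comp Primrec.fst)
  have q1 : Primrec (fun z : Q3 × Q3 => z.2.1) := Primrec.fst.comp Primrec.snd
  have q2 : Primrec (fun z : Q3 × Q3 => z.2.2.1) := Primrec.fst.comp (Primrec.snd.comp Primrec.snd)
  have q3 : Primrec (fun z : Q3 × Q3 => z.2.2.2) := Primrec.snd.comp (Primrec.snd.comp Primrec.snd)
  have p3' : Primrec (fun z : Q3 × Q3 => z.1.2.2 + 1) := Primrec.succ.comp p3
  have q3' : Primrec (fun z : Q3 × Q3 => z.2.2.2 + 1) := Primrec.succ.comp q3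
  refine Primrec.pair ?_ (Primrec.pair ?_ ?_)
  · exact Primrec.nat_add.comp (Primrec.nat_mul.comp p1 q1) (Primrec.nat_mul.comp p2 q2)
  · exact Primrec.nat_add.comp (Primrec.nat_mul.comp p1 q2) (Primrec.nat_mul.comp p2 q1)
  · exact Primrec.nat_sub.comp (Primrec.nat_mul.comp p3' q3') (Primrec.const 1)

theorem primrec_qinv : Primrec qinv := by
  have p1 : Primrec (fun z : Q3 => z.1) := Primrec.fst
  have p2 : Primrec (fun z : Q3 => z.2.1) := Primrec.fst.comp Primrec.snd
  have p3 : Primrec (fun z : Q3 => z.2.2) := Primrec.snd.comp Primrec.snd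
  have p3' : Primrec (fun z : Q3 => z.2.2 + 1) := Primrec.succ.comp p3
  refine Primrec.ite (Primrec.nat_lt.comp p2 p1) ?_
    (Primrec.ite (Primrec.nat_lt.comp p1 p2) ?_ (Primrec.const _))
  · exact Primrec.pair p3' (Primrec.pair (Primrec.const 0)
      (Primrec.nat_sub.comp (Primrec.nat_sub.comp p1 p2) (Primrec.const 1)))
  · exact Primrec.pair (Primrec.const 0) (Primrec.pair p3'
      (Primrec.nat_sub.comp (Primrec.nat_sub.comp p2 p1) (Primrec.const 1)))

theorem primrec_qnat : Primrec qnat :=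
  Primrec.pair Primrec.id (Primrec.const (0, 0))

/-- powers -/
def qpow (p : Q3) (n : ℕ) : Q3 := Nat.rec (1, 0, 0) (fun _ r => qmul r p) n

theorem rv_qpow (p : Q3) (n : ℕ) : rv (qpow p n) = rv p ^ n := by
  induction n with
  | zero => simp only [qpow]; rw [rv_def]; simp
  | succ n ih =>
    have h : qpow p (n + 1) = qmul (qpow p n) p := rfl
    rw [h, rv_qmul, ih, pow_succ]

theorem primrec_qpow : Primrec₂ qpow := by
  refine (Primrec.nat_rec (f := fun _ : Q3 => ((1, 0, 0) : Q3))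
    (g := fun (a : Q3) (p : ℕ × Q3) => qmul p.2 a) (Primrec.const _) ?_)
  exact primrec_qmul.comp₂ (Primrec.snd.comp₂ Primrec₂.right) Primrec₂.left

/-- finite sums `∑_{i<n} f i` -/
def qsum (f : ℕ → Q3) (n : ℕ) : Q3 := Nat.rec (0, 0, 0) (fun i r => qadd r (f i)) n

theorem rv_qsum (f : ℕ → Q3) (n : ℕ) : rv (qsum f n) = ∑ i ∈ Finset.range n, rv (f i) := by
  induction n with
  | zero =>
    have h : qsum f 0 = (0, 0, 0) := rfl
    rw [h, rv_zero]; simp
  | succ n ih =>
    have h : qsum f (n + 1) = qadd (qsum f n) (f n) := rfl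
    rw [h, rv_qadd, ih, Finset.sum_range_succ]

variable {α β : Type*} [Primcodable α] [Primcodable β]

theorem computable_qsum {f : α → ℕ → Q3} {n : α → ℕ} (hf : Computable₂ f) (hn : Computable n) :
    Computable fun a => qsum (f a) (n a) := by
  refine Computable.nat_rec (f := n) (g := fun _ => ((0, 0, 0) : Q3))
    (h := fun a (p : ℕ × Q3) => qadd p.2 (f a p.1)) hn (Computable.const _) ?_
  exact primrec_qadd.to_comp.comp (Computable.snd.comp Computable.snd)
    (hf.comp Computable.fst (Computable.fst.comp Computable.snd))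

/-! ### Computable families of reals -/

/-- The family `F` of real numbers is uniformly computable. -/
def CR (F : α → ℝ) : Prop :=
  ∃ g : α → ℕ → Q3, Computable₂ g ∧ ∀ a k, |F a - rv (g a k)| ≤ 1 / ((k : ℝ) + 1)

theorem CR.of_eq {F G : α → ℝ} (h : CR F) (e : ∀ a, F a = G a) : CR G := by
  obtain rfl : F = G := funext e
  exact h

theorem CR.rat {g : α → Q3} (hg : Computable g) : CR fun a => rv (g a) :=
  ⟨fun a _ => g a, hg.comp Computable.fst, fun a k => by simp; positivity⟩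

theorem CR.nat {g : α → ℕ} (hg : Computable g) : CR fun a => (g a : ℝ) :=
  (CR.rat (primrec_qnat.to_comp.comp hg)).of_eq fun _ => rv_qnat _

theorem CR.zero : CR fun _ : α => (0 : ℝ) :=
  (CR.nat (g := fun _ : α => 0) (Computable.const 0)).of_eq fun a => by simp

theorem CR.one : CR fun _ : α => (1 : ℝ) :=
  (CR.nat (g := fun _ : α => 1) (Computable.const 1)).of_eq fun a => by simp

theorem CR.of_real {x : ℝ} (hx : IsComputableReal x) : CR fun _ : α => x := by
  obtain ⟨g, hg, h⟩ := hx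
  exact ⟨fun _ k => g k, hg.comp Computable.snd, fun a k => h k⟩

theorem CR.comp {F : α → ℝ} (hF : CR F) {h : β → α} (hh : Computable h) :
    CR fun b => F (h b) := by
  obtain ⟨g, hg, H⟩ := hF
  exact ⟨fun b k => g (h b) k, hg.comp (hh.comp Computable.fst) Computable.snd,
    fun b k => H (h b) k⟩

/-- Effective limits. -/
theorem CR.lim {F : α → ℝ} {F' : α × ℕ → ℝ} (hF' : CR F')
    (H : ∀ a n, |F a - F' (a, n)| ≤ 1 / ((n : ℝ) + 1)) : CR F := by
  obtain ⟨g, hg, h⟩ := hF'
  have hc : Computable (fun z : α × ℕ => 2 * z.2 + 1) :=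
    (Primrec.nat_double_succ.to_comp).comp Computable.snd
  refine ⟨fun a k => g (a, 2 * k + 1) (2 * k + 1),
    hg.comp (Computable.pair Computable.fst hc) hc, fun a k => ?_⟩
  have h1 := H a (2 * k + 1)
  have h2 := h (a, 2 * k + 1) (2 * k + 1)
  have h3 : (1 : ℝ) / (((2 * k + 1 : ℕ) : ℝ) + 1) = 1 / 2 * (1 / ((k : ℝ) + 1)) := by
    push_cast
    field_simp
    ring
  rw [h3] at h1 h2
  calc |F a - rv (g (a, 2 * k + 1) (2 * k + 1))|
      ≤ |F a - F' (a, 2 * k + 1)| + |F' (a, 2 * k + 1) - rv (g (a, 2 * k + 1) (2 * k + 1))| :=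
        abs_sub_le _ _ _
    _ ≤ 1 / ((k : ℝ) + 1) := by linarith

theorem CR.add {F G : α → ℝ} (hF : CR F) (hG : CR G) : CR fun a => F a + G a := by
  obtain ⟨f, hf, h1⟩ := hF
  obtain ⟨g, hg, h2⟩ := hG
  have hc : Computable (fun z : α × ℕ => 2 * z.2 + 1) :=
    (Primrec.nat_double_succ.to_comp).comp Computable.snd
  refine ⟨fun a k => qadd (f a (2 * k + 1)) (g a (2 * k + 1)),
    primrec_qadd.to_comp.comp (hf.comp Computable.fst hc) (hg.comp Computable.fst hc),
    fun a k => ?_⟩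
  have h1 := h1 a (2 * k + 1)
  have h2 := h2 a (2 * k + 1)
  have h3 : (1 : ℝ) / (((2 * k + 1 : ℕ) : ℝ) + 1) = 1 / 2 * (1 / ((k : ℝ) + 1)) := by
    push_cast
    field_simp
    ring
  rw [h3] at h1 h2
  rw [rv_qadd, show F a + G a - (rv (f a (2 * k + 1)) + rv (g a (2 * k + 1))) =
    (F a - rv (f a (2 * k + 1))) + (G a - rv (g a (2 * k + 1))) by ring]
  calc _ ≤ _ := abs_add_le _ _
    _ ≤ 1 / ((k : ℝ) + 1) := by linarith

theorem CR.neg {F : α → ℝ} (hF : CR F) : CR fun a => - F a := by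
  obtain ⟨f, hf, h1⟩ := hF
  refine ⟨fun a k => qneg (f a k), primrec_qneg.to_comp.comp hf, fun a k => ?_⟩
  rw [rv_qneg, ← neg_sub', abs_neg]
  exact h1 a k

theorem CR.sub {F G : α → ℝ} (hF : CR F) (hG : CR G) : CR fun a => F a - G a :=
  (hF.add hG.neg).of_eq fun a => by ring

/-- A computable natural number bound. -/
theorem CR.bound {F : α → ℝ} (hF : CR F) : ∃ B : α → ℕ, Computable B ∧ ∀ a, |F a| ≤ B a := by
  obtain ⟨f, hf, h1⟩ := hF
  have e1 : Computable fun a => f a 0 := hf.comp Computable.id (Computable.const 0)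
  refine ⟨fun a => (f a 0).1 + (f a 0).2.1 + 1, ?_, fun a => ?_⟩
  · exact (Computable.succ).comp (Primrec.nat_add.to_comp.comp (Computable.fst.comp e1)
      (Computable.fst.comp (Computable.snd.comp e1)))
  · have h2 := h1 a 0
    have h3 : |rv (f a 0)| ≤ (f a 0).1 + (f a 0).2.1 := by
      rw [rv_def, abs_div, abs_of_pos (by positivity : (0 : ℝ) < ((f a 0).2.2 : ℝ) + 1)]
      have h4 : |((f a 0).1 : ℝ) - (f a 0).2.1| ≤ (f a 0).1 + (f a 0).2.1 := by
        rw [abs_le]
        have := Nat.cast_nonneg (α := ℝ) (f a 0).1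
        have := Nat.cast_nonneg (α := ℝ) (f a 0).2.1
        constructor <;> linarith
      have h5 : (0 : ℝ) ≤ (f a 0).2.2 := Nat.cast_nonneg _
      calc _ ≤ |((f a 0).1 : ℝ) - (f a 0).2.1| / 1 := by
            apply div_le_div_of_nonneg_left (abs_nonneg _) one_pos; linarith
        _ ≤ _ := by rw [div_one]; exact h4
    have h6 : |F a| ≤ |F a - rv (f a 0)| + |rv (f a 0)| := by
      calc |F a| = |(F a - rv (f a 0)) + rv (f a 0)| := by ring_nf
        _ ≤ _ := abs_add_le _ _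
    push_cast
    norm_num at h2
    linarith

/-- Composition with a family of functions, computable at rational arguments, with a computable
local Lipschitz constant. -/
theorem CR.lip {F : α → ℝ} (hF : CR F) {Φ : α → ℝ → ℝ} (hΦ : CR fun z : α × Q3 => Φ z.1 (rv z.2))
    {L : α → ℕ} (hL : Computable L)
    (H : ∀ a q, |F a - rv q| ≤ 1 → |Φ a (F a) - Φ a (rv q)| ≤ L a * |F a - rv q|) :
    CR fun a => Φ a (F a) := by
  obtain ⟨f, hf, h1⟩ := hF
  -- the precision needed for `F`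
  have hN : Computable (fun z : α × ℕ => (L z.1 + 1) * (z.2 + 1)) :=
    Primrec.nat_mul.to_comp.comp (Computable.succ.comp (hL.comp Computable.fst))
      (Computable.succ.comp Computable.snd)
  have h2 : CR (fun z : α × ℕ => Φ z.1 (rv (f z.1 ((L z.1 + 1) * (z.2 + 1))))) :=
    hΦ.comp (h := fun z : α × ℕ => (z.1, f z.1 ((L z.1 + 1) * (z.2 + 1))))
      (Computable.pair Computable.fst (hf.comp Computable.fst hN))
  refine CR.lim h2 fun a n => ?_
  have h3 := h1 a ((L a + 1) * (n + 1))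
  have hpos : (0 : ℝ) < ((L a : ℝ) + 1) * ((n : ℝ) + 1) := by positivity
  have h4 : |F a - rv (f a ((L a + 1) * (n + 1)))| ≤ 1 / (((L a : ℝ) + 1) * ((n : ℝ) + 1)) := by
    refine h3.trans ?_
    push_cast
    apply one_div_le_one_div_of_le hpos; linarith
  have h5 : |F a - rv (f a ((L a + 1) * (n + 1)))| ≤ 1 := by
    refine h4.trans ?_
    rw [div_le_one hpos]
    have : (0 : ℝ) ≤ L a := Nat.cast_nonneg _
    have : (0 : ℝ) ≤ n := Nat.cast_nonneg _
    nlinarith
  refine (H a _ h5).trans ?_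
  calc (L a : ℝ) * |F a - rv (f a ((L a + 1) * (n + 1)))|
      ≤ ((L a : ℝ) + 1) * (1 / (((L a : ℝ) + 1) * ((n : ℝ) + 1))) := by
        gcongr
        linarith
    _ = 1 / ((n : ℝ) + 1) := by field_simp

theorem CR.mul_rat {F : α → ℝ} (hF : CR F) {q : α → Q3} (hq : Computable q) :
    CR fun a => F a * rv (q a) := by
  obtain ⟨B, hB, hB'⟩ := (CR.rat hq).bound
  refine CR.lip hF (Φ := fun a x => x * rv (q a)) ?_ hB fun a r _ => ?_
  · exact (CR.rat (g := fun z : α × Q3 => qmul z.2 (q z.1))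
      (primrec_qmul.to_comp.comp Computable.snd (hq.comp Computable.fst))).of_eq
      fun z => rv_qmul _ _
  · rw [← sub_mul, abs_mul, mul_comm]
    gcongr
    exact hB' a

theorem CR.mul {F G : α → ℝ} (hF : CR F) (hG : CR G) : CR fun a => F a * G a := by
  obtain ⟨B, hB, hB'⟩ := hG.bound
  refine CR.lip hF (Φ := fun a x => x * G a) ?_ hB fun a r _ => ?_
  · exact ((hG.comp (Computable.fst (α := α) (β := Q3))).mul_rat
      (q := fun z : α × Q3 => z.2) Computable.snd).of_eq fun z => mul_comm _ _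
  · rw [← sub_mul, abs_mul, mul_comm]
    gcongr
    exact hB' a

theorem CR.ite {c : α → Prop} [DecidablePred c] (hc : Computable fun a => decide (c a))
    {F G : α → ℝ} (hF : CR F) (hG : CR G) : CR fun a => if c a then F a else G a := by
  obtain ⟨f, hf, h1⟩ := hF
  obtain ⟨g, hg, h2⟩ := hG
  refine ⟨fun a k => bif decide (c a) then f a k else g a k,
    Computable.cond (hc.comp Computable.fst) hf hg, fun a k => ?_⟩
  by_cases h : c a
  · simpa [h] using h1 a k
  · simpa [h] using h2 a k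

end Vale.Agent.P113
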