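import Vale.Agent.P113.CompReal

/-!
# P113: exponential, cosine and pi are uniformly computable
-/

open Set Function

namespace Vale.Agent.P113

variable {α β : Type*} [Primcodable α] [Primcodable β]

/-- number of half-terms used in the exponential series -/
def expM (B k : ℕ) : ℕ := 2 * B ^ 2 + B + 2 * k + 1

theorem exp_tail (B k : ℕ) :
    (B : ℝ) ^ (2 * expM B k) / ((2 * expM B k).factorial : ℝ) * 2 ≤ 1 / ((k : ℝ) + 1) := by
  set m := expM B k with hm
  have h1 : m.factorial * (m + 1) ^ m ≤ (m + m).factorial := Nat.factorial_mul_pow_le_factorial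
  have h2 : (m + 1) ^ m ≤ (2 * m).factorial := by
    rw [two_mul]
    exact (Nat.le_mul_of_pos_left _ (Nat.factorial_pos m)).trans h1
  have h3 : ((m : ℝ) + 1) ^ m ≤ ((2 * m).factorial : ℝ) := by exact_mod_cast h2
  have hpos : (0 : ℝ) < ((m : ℝ) + 1) ^ m := by positivity
  have h4 : (B : ℝ) ^ (2 * m) / ((2 * m).factorial : ℝ) ≤ (1 / 2) ^ m := by
    calc (B : ℝ) ^ (2 * m) / ((2 * m).factorial : ℝ) ≤ (B : ℝ) ^ (2 * m) / ((m : ℝ) + 1) ^ m := by
          gcongr
      _ = ((B : ℝ) ^ 2 / ((m : ℝ) + 1)) ^ m := by rw [div_pow, pow_mul]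
      _ ≤ (1 / 2) ^ m := by
          apply pow_le_pow_left₀ (by positivity)
          rw [div_le_div_iff₀ (by positivity) (by norm_num)]
          have : (m : ℝ) = 2 * B ^ 2 + B + 2 * k + 1 := by rw [hm]; simp [expM]
          rw [this]
          have := Nat.cast_nonneg (α := ℝ) B
          have := Nat.cast_nonneg (α := ℝ) k
          nlinarith
  have h5 : ((1 : ℝ) / 2) ^ m ≤ 1 / ((m : ℝ) + 1) := by
    rw [one_div, inv_pow, ← one_div]
    apply one_div_le_one_div_of_le (by positivity)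
    have h6 : m + 1 ≤ 2 ^ m := Nat.lt_two_pow_self
    exact_mod_cast h6
  have h6 : 1 / ((m : ℝ) + 1) ≤ 1 / (2 * ((k : ℝ) + 1)) := by
    apply one_div_le_one_div_of_le (by positivity)
    have : (m : ℝ) = 2 * B ^ 2 + B + 2 * k + 1 := by rw [hm]; simp [expM]
    rw [this]
    have := Nat.cast_nonneg (α := ℝ) B
    nlinarith
  calc _ ≤ 1 / (2 * ((k : ℝ) + 1)) * 2 :=
        mul_le_mul_of_nonneg_right (h4.trans (h5.trans h6)) (by norm_num)
    _ = 1 / ((k : ℝ) + 1) := by field_simp

theorem expM_cond (B k : ℕ) : (B : ℝ) / ((2 * expM B k).succ : ℝ) ≤ 1 / 2 := by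
  rw [div_le_div_iff₀ (by positivity) (by norm_num)]
  have : 2 * B ≤ (2 * expM B k).succ := by simp only [expM]; grind
  have h : (2 : ℝ) * B ≤ ((2 * expM B k).succ : ℝ) := by exact_mod_cast this
  linarith

theorem exp_approx (x : ℝ) (B k : ℕ) (hB : |x| ≤ B) :
    |Real.exp x - ∑ i ∈ Finset.range (2 * expM B k), x ^ i * ((i.factorial : ℝ))⁻¹|
      ≤ 1 / ((k : ℝ) + 1) := by
  have hx : ‖(x : ℂ)‖ ≤ B := by rw [Complex.norm_real]; exact hB
  have h1 : ‖(x : ℂ)‖ / ((2 * expM B k).succ : ℝ) ≤ 1 / 2 :=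
    le_trans (by gcongr) (expM_cond B k)
  have h2 := Complex.exp_bound' h1
  have h3 : ‖Complex.exp (x : ℂ) - ∑ m ∈ Finset.range (2 * expM B k),
      (x : ℂ) ^ m / (m.factorial : ℂ)‖ ≤ 1 / ((k : ℝ) + 1) := by
    refine h2.trans (le_trans ?_ (exp_tail B k))
    gcongr
  have h4 : Complex.exp (x : ℂ) - ∑ m ∈ Finset.range (2 * expM B k),
      (x : ℂ) ^ m / (m.factorial : ℂ) = ((Real.exp x - ∑ i ∈ Finset.range (2 * expM B k),
        x ^ i * ((i.factorial : ℝ))⁻¹ : ℝ) : ℂ) := by
    push_cast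
    simp only [div_eq_mul_inv]
  rw [h4, Complex.norm_real] at h3
  exact h3

/-- the real part of `I ^ i` -/
def reI (i : ℕ) : Q3 := if i % 4 = 0 then (1, 0, 0) else if i % 4 = 2 then (0, 1, 0) else (0, 0, 0)

theorem rv_reI (i : ℕ) : rv (reI i) = (Complex.I ^ i).re := by
  rw [Complex.I_pow_eq_pow_mod]
  have h : i % 4 < 4 := Nat.mod_lt _ (by norm_num)
  simp only [reI]
  generalize i % 4 = j at h
  interval_cases j <;> simp [rv_def, pow_succ]

theorem cos_approx (x : ℝ) (B k : ℕ) (hB : |x| ≤ B) :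
    |Real.cos x - ∑ i ∈ Finset.range (2 * expM B k), x ^ i * ((i.factorial : ℝ))⁻¹ * rv (reI i)|
      ≤ 1 / ((k : ℝ) + 1) := by
  have hx : ‖(x : ℂ) * Complex.I‖ ≤ B := by
    rw [norm_mul, Complex.norm_I, mul_one, Complex.norm_real]; exact hB
  have h1 : ‖(x : ℂ) * Complex.I‖ / ((2 * expM B k).succ : ℝ) ≤ 1 / 2 :=
    le_trans (by gcongr) (expM_cond B k)
  have h2 := Complex.exp_bound' h1
  have h3 : ‖Complex.exp ((x : ℂ) * Complex.I) - ∑ m ∈ Finset.range (2 * expM B k),
      ((x : ℂ) * Complex.I) ^ m / (m.factorial : ℂ)‖ ≤ 1 / ((k : ℝ) + 1) := by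
    refine h2.trans (le_trans ?_ (exp_tail B k))
    gcongr
  have h4 : (Complex.exp ((x : ℂ) * Complex.I) - ∑ m ∈ Finset.range (2 * expM B k),
      ((x : ℂ) * Complex.I) ^ m / (m.factorial : ℂ)).re =
      Real.cos x - ∑ i ∈ Finset.range (2 * expM B k),
        x ^ i * ((i.factorial : ℝ))⁻¹ * rv (reI i) := by
    rw [Complex.sub_re, Complex.exp_ofReal_mul_I_re, Complex.re_sum]
    congr 1
    refine Finset.sum_congr rfl fun i _ => ?_
    have h5 : ((x : ℂ) * Complex.I) ^ i / (i.factorial : ℂ) =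
        ((x ^ i * ((i.factorial : ℝ))⁻¹ : ℝ) : ℂ) * Complex.I ^ i := by
      push_cast
      rw [mul_pow]
      ring
    rw [h5, Complex.re_ofReal_mul, rv_reI]
  rw [← h4]
  exact (Complex.abs_re_le_norm _).trans h3

theorem primrec_factorial : Primrec Nat.factorial := by
  have h : Primrec (Nat.rec 1 (fun n r => (n + 1) * r) : ℕ → ℕ) :=
    Primrec.nat_rec₁ 1 (Primrec.nat_mul.comp₂ (Primrec.succ.comp₂ Primrec₂.left) Primrec₂.right)
  refine h.of_eq fun n => ?_
  induction n with
  | zero => rfl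
  | succ n ih => rw [Nat.factorial_succ, ← ih]

theorem primrec_nat_pow : Primrec₂ (fun a n : ℕ => a ^ n) := by
  have h : Primrec₂ (fun (a n : ℕ) => (Nat.rec 1 (fun _ r => r * a) n : ℕ)) := by
    refine (Primrec.nat_rec (f := fun _ : ℕ => (1 : ℕ))
      (g := fun (a : ℕ) (p : ℕ × ℕ) => p.2 * a) (Primrec.const _) ?_)
    exact Primrec.nat_mul.comp₂ (Primrec.snd.comp₂ Primrec₂.right) Primrec₂.left
  refine h.of_eq fun a n => ?_
  induction n with
  | zero => rfl
  | succ n ih => simp only [pow_succ, ← ih]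

theorem primrec_expM : Primrec₂ expM := by
  have hB : Primrec (fun z : ℕ × ℕ => z.1) := Primrec.fst
  have hk : Primrec (fun z : ℕ × ℕ => z.2) := Primrec.snd
  have h1 : Primrec (fun z : ℕ × ℕ => 2 * z.1 ^ 2) :=
    Primrec.nat_double.comp (primrec_nat_pow.comp hB (Primrec.const 2))
  exact Primrec.succ.comp (Primrec.nat_add.comp (Primrec.nat_add.comp h1 hB)
    (Primrec.nat_double.comp hk))

theorem primrec_reI : Primrec reI := by
  have h : Primrec (fun i : ℕ => i % 4) := Primrec.nat_mod.comp Primrec.id (Primrec.const 4)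
  refine Primrec.ite (Primrec.eq.comp h (Primrec.const 0)) (Primrec.const _)
    (Primrec.ite (Primrec.eq.comp h (Primrec.const 2)) (Primrec.const _) (Primrec.const _))

theorem computable_expTerm {q : α → Q3} (hq : Computable q) :
    Computable₂ (fun (a : α) (i : ℕ) => qmul (qpow (q a) i) (qinv (qnat i.factorial))) :=
  primrec_qmul.to_comp.comp
    (primrec_qpow.to_comp.comp (hq.comp Computable.fst) Computable.snd)
    ((primrec_qinv.comp (primrec_qnat.comp primrec_factorial)).to_comp.comp Computable.snd)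

theorem CR.exp_rat {q : α → Q3} (hq : Computable q) : CR fun a => Real.exp (rv (q a)) := by
  obtain ⟨B, hB, hB'⟩ := (CR.rat hq).bound
  have h1 : Computable (fun z : α × ℕ => qsum (fun i =>
      qmul (qpow (q z.1) i) (qinv (qnat i.factorial))) (2 * expM (B z.1) z.2)) :=
    computable_qsum (computable_expTerm (hq.comp Computable.fst))
      (Primrec.nat_double.to_comp.comp (primrec_expM.to_comp.comp (hB.comp Computable.fst)
        Computable.snd))
  refine CR.lim (CR.rat h1) fun a n => ?_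
  have h2 := exp_approx (rv (q a)) (B a) n (hB' a)
  rw [rv_qsum]
  simp only [rv_qmul, rv_qpow, rv_qinv, rv_qnat]
  exact h2

theorem CR.cos_rat {q : α → Q3} (hq : Computable q) : CR fun a => Real.cos (rv (q a)) := by
  obtain ⟨B, hB, hB'⟩ := (CR.rat hq).bound
  have h1 : Computable (fun z : α × ℕ => qsum (fun i =>
      qmul (qmul (qpow (q z.1) i) (qinv (qnat i.factorial))) (reI i))
      (2 * expM (B z.1) z.2)) := by
    have e1 : Computable₂ (fun (z : α × ℕ) (i : ℕ) =>
        qmul (qpow (q z.1) i) (qinv (qnat i.factorial))) :=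
      computable_expTerm (hq.comp Computable.fst)
    have e2 : Computable₂ (fun (_ : α × ℕ) (i : ℕ) => reI i) :=
      primrec_reI.to_comp.comp Computable.snd
    have e3 : Computable₂ (fun (z : α × ℕ) (i : ℕ) =>
        qmul (qmul (qpow (q z.1) i) (qinv (qnat i.factorial))) (reI i)) :=
      primrec_qmul.to_comp.comp e1 e2
    exact computable_qsum e3
      (Primrec.nat_double.to_comp.comp (primrec_expM.to_comp.comp (hB.comp Computable.fst)
        Computable.snd))
  refine CR.lim (CR.rat h1) fun a n => ?_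
  have h2 := cos_approx (rv (q a)) (B a) n (hB' a)
  rw [rv_qsum]
  simp only [rv_qmul, rv_qpow, rv_qinv, rv_qnat]
  exact h2

theorem CR.cos {F : α → ℝ} (hF : CR F) : CR fun a => Real.cos (F a) := by
  refine CR.lip hF (Φ := fun _ x => Real.cos x) (CR.cos_rat Computable.snd)
    (L := fun _ => 1) (Computable.const 1) fun a q _ => ?_
  simpa using Real.abs_cos_sub_cos_le (F a) (rv q)

theorem CR.pow {F : α → ℝ} (hF : CR F) {n : α → ℕ} (hn : Computable n) :
    CR fun a => F a ^ n a := by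
  obtain ⟨B, hB, hB'⟩ := hF.bound
  refine CR.lip hF (Φ := fun a x => x ^ n a) ?_
    (L := fun a => n a * (B a + 1) ^ (n a)) ?_ fun a q h => ?_
  · exact (CR.rat (primrec_qpow.to_comp.comp Computable.snd (hn.comp Computable.fst))).of_eq
      fun z => rv_qpow _ _
  · exact Primrec.nat_mul.to_comp.comp hn
      (primrec_nat_pow.to_comp.comp (Computable.succ.comp hB) hn)
  · have h1 := abs_pow_sub_pow_le (F a) (rv q) (n a)
    have h2 : max |F a| |rv q| ≤ (B a : ℝ) + 1 := by
      apply max_le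
      · linarith [hB' a]
      · have : |rv q| ≤ |F a| + |F a - rv q| := by
          calc |rv q| = |F a - (F a - rv q)| := by ring_nf
            _ ≤ _ := abs_sub _ _
        linarith [hB' a]
    have h3 : max |F a| |rv q| ^ (n a - 1) ≤ ((B a : ℝ) + 1) ^ n a := by
      calc max |F a| |rv q| ^ (n a - 1) ≤ ((B a : ℝ) + 1) ^ (n a - 1) :=
            pow_le_pow_left₀ (by positivity) h2 _
        _ ≤ ((B a : ℝ) + 1) ^ n a := pow_le_pow_right₀ (by
            linarith [Nat.cast_nonneg (α := ℝ) (B a)]) (Nat.sub_le _ _)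
    push_cast
    calc _ ≤ _ := h1
      _ ≤ |F a - rv q| * n a * ((B a : ℝ) + 1) ^ n a := by gcongr
      _ = _ := by ring

/-- the `i`-th term of the Leibniz series -/
theorem CR.pi : CR fun _ : α => Real.pi := by
  have h1 : Computable (fun z : α × ℕ => qsum (fun i =>
      qmul (qpow (0, 1, 0) i) (qinv (qnat (2 * i + 1)))) (2 * (4 * (z.2 + 1)))) := by
    refine computable_qsum (f := fun (_ : α × ℕ) (i : ℕ) =>
      qmul (qpow (0, 1, 0) i) (qinv (qnat (2 * i + 1)))) ?_ ?_
    · refine primrec_qmul.to_comp.comp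
        (primrec_qpow.to_comp.comp (Computable.const _) Computable.snd)
        ((primrec_qinv.comp (primrec_qnat.comp Primrec.nat_double_succ)).to_comp.comp
          Computable.snd)
    · exact (Primrec.nat_double.comp (Primrec.nat_mul.comp (Primrec.const 4)
        Primrec.succ)).to_comp.comp Computable.snd
  refine ((CR.lim (F := fun _ : α => Real.pi / 4) ((CR.rat h1)) fun a n => ?_).mul
    (CR.nat (g := fun _ => 4) (Computable.const 4))).of_eq fun a => by push_cast; ring
  rw [rv_qsum]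
  simp only [rv_qmul, rv_qpow, rv_qinv, rv_qnat]
  have h2 : rv (0, 1, 0) = -1 := by rw [rv_def]; norm_num
  rw [h2]
  have hl : Filter.Tendsto (fun n => ∑ i ∈ Finset.range n, (-1 : ℝ) ^ i *
      (((2 * i + 1 : ℕ) : ℝ))⁻¹) Filter.atTop (nhds (Real.pi / 4)) := by
    refine Real.tendsto_sum_pi_div_four.congr fun n => ?_
    refine Finset.sum_congr rfl fun i _ => ?_
    push_cast
    rw [div_eq_mul_inv]
  have ha : Antitone (fun i : ℕ => (((2 * i + 1 : ℕ) : ℝ))⁻¹) := by
    intro i j hij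
    simp only
    gcongr
  have h3 := ha.alternating_series_le_tendsto hl (4 * (n + 1))
  have h4 := ha.tendsto_le_alternating_series hl (4 * (n + 1))
  rw [Finset.sum_range_succ] at h4
  have h5 : (-1 : ℝ) ^ (2 * (4 * (n + 1))) = 1 := by simp [pow_mul]
  rw [h5, one_mul] at h4
  have h6 : (((2 * (2 * (4 * (n + 1))) + 1 : ℕ) : ℝ))⁻¹ ≤ 1 / ((n : ℝ) + 1) := by
    rw [one_div]
    gcongr
    push_cast
    have := Nat.cast_nonneg (α := ℝ) n
    linarith
  rw [abs_le]
  constructor <;> linarith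

end Vale.Agent.P113
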