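import Vale.Agent.P113.Defs

/-!
# P113: the simulation of a Turing machine on its description is computable
-/

open Turing

namespace Vale.Agent.P113

namespace TMComp

/-- A coded configuration: state, cells to the left of the head, cells from the head on. -/
abbrev CCfg : Type := ℕ × List ℕ × List ℕ

/-- The table entry used in the coded configuration `c`. -/
def entry (M : Machine.Descr) (c : CCfg) : ℕ × ℕ × ℕ :=
  (M.2.2.2.2[c.1 * (M.2.1 + 1) + c.2.2.headI]?).getD (0, 0, 0)

/-- The next coded configuration, when the table entry is `r`. -/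
def applyEntry (r : ℕ × ℕ × ℕ) (c : CCfg) : CCfg :=
  if r.2.2 = 0 then (r.1, c.2.1, r.2.1 :: c.2.2.tail)
  else if r.2.2 = 1 then (r.1, c.2.1.tail, c.2.1.headI :: r.2.1 :: c.2.2.tail)
  else (r.1, r.2.1 :: c.2.1, c.2.2.tail)

/-- One step of the coded machine. -/
def cstep (M : Machine.Descr) (c : CCfg) : CCfg := applyEntry (entry M c) c

/-- The initial coded configuration. -/
def cinit (x : Machine.Descr × List ℕ) : CCfg := (x.1.2.2.1, [], x.2)

/-- Is the state number `q` halting? -/
def chalt (M : Machine.Descr) (q : ℕ) : Bool := (M.2.2.2.1[q]?).getD false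

end TMComp

open TMComp

/-- `haltAt (M, w) k`: after `k` steps on the input `w` the machine with description `M` is in a
halting state. -/
def haltAt (x : Machine.Descr × List ℕ) (k : ℕ) : Bool :=
  chalt x.1 ((cstep x.1)^[k] (cinit x)).1

namespace TMComp

/-! ## Computability -/

theorem primrec_entry : Primrec₂ entry := by
  unfold entry
  refine Primrec.option_getD.comp (Primrec.list_getElem?.comp ?_ ?_) (Primrec.const _)
  · exact Primrec.snd.comp (Primrec.snd.comp (Primrec.snd.comp (Primrec.snd.comp Primrec.fst)))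
  · refine Primrec.nat_add.comp (Primrec.nat_mul.comp ?_ ?_) ?_
    · exact Primrec.fst.comp Primrec.snd
    · exact Primrec.succ.comp (Primrec.fst.comp (Primrec.snd.comp Primrec.fst))
    · exact Primrec.list_headI.comp (Primrec.snd.comp (Primrec.snd.comp Primrec.snd))

theorem primrec_applyEntry : Primrec₂ applyEntry := by
  unfold applyEntry
  have r1 : Primrec fun p : (ℕ × ℕ × ℕ) × CCfg => p.1.1 := Primrec.fst.comp Primrec.fst
  have r2 : Primrec fun p : (ℕ × ℕ × ℕ) × CCfg => p.1.2.1 :=
    Primrec.fst.comp (Primrec.snd.comp Primrec.fst)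
  have r3 : Primrec fun p : (ℕ × ℕ × ℕ) × CCfg => p.1.2.2 :=
    Primrec.snd.comp (Primrec.snd.comp Primrec.fst)
  have cL : Primrec fun p : (ℕ × ℕ × ℕ) × CCfg => p.2.2.1 :=
    Primrec.fst.comp (Primrec.snd.comp Primrec.snd)
  have cR : Primrec fun p : (ℕ × ℕ × ℕ) × CCfg => p.2.2.2 :=
    Primrec.snd.comp (Primrec.snd.comp Primrec.snd)
  have tR : Primrec fun p : (ℕ × ℕ × ℕ) × CCfg => p.2.2.2.tail := Primrec.list_tail.comp cR
  have tL : Primrec fun p : (ℕ × ℕ × ℕ) × CCfg => p.2.2.1.tail := Primrec.list_tail.comp cL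
  have hL : Primrec fun p : (ℕ × ℕ × ℕ) × CCfg => p.2.2.1.headI := Primrec.list_headI.comp cL
  refine Primrec.ite ?_ ?_ (Primrec.ite ?_ ?_ ?_)
  · exact PrimrecRel.comp Primrec.eq r3 (Primrec.const 0)
  · exact r1.pair (cL.pair (Primrec.list_cons.comp r2 tR))
  · exact PrimrecRel.comp Primrec.eq r3 (Primrec.const 1)
  · exact r1.pair (tL.pair (Primrec.list_cons.comp hL (Primrec.list_cons.comp r2 tR)))
  · exact r1.pair ((Primrec.list_cons.comp r2 cL).pair tR)

theorem primrec_cstep : Primrec₂ cstep := by
  unfold cstep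
  exact primrec_applyEntry.comp (primrec_entry.comp Primrec.fst Primrec.snd) Primrec.snd

theorem primrec_cinit : Primrec cinit := by
  unfold cinit
  exact (Primrec.fst.comp (Primrec.snd.comp (Primrec.snd.comp Primrec.fst))).pair
    ((Primrec.const []).pair Primrec.snd)

theorem primrec_chalt : Primrec₂ chalt := by
  unfold chalt
  refine Primrec.option_getD.comp (Primrec.list_getElem?.comp ?_ Primrec.snd) (Primrec.const _)
  exact Primrec.fst.comp (Primrec.snd.comp (Primrec.snd.comp (Primrec.snd.comp Primrec.fst)))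

end TMComp

theorem primrec_haltAt : Primrec₂ haltAt := by
  unfold haltAt
  refine primrec_chalt.comp (Primrec.fst.comp Primrec.fst) (Primrec.fst.comp ?_)
  refine Primrec.nat_iterate (f := fun p : (Machine.Descr × List ℕ) × ℕ => p.2)
    (g := fun p => cinit p.1) (h := fun p c => cstep p.1.1 c) Primrec.snd
    (primrec_cinit.comp Primrec.fst) ?_
  exact primrec_cstep.comp (Primrec.fst.comp (Primrec.fst.comp Primrec.fst)) Primrec.snd

theorem computable_haltAt : Computable₂ haltAt := primrec_haltAt.to_comp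

namespace TMComp

/-! ## Correctness -/

/-- The coded configuration `c` describes the configuration `C` of `M`. -/
def Rep (M : Machine) (c : CCfg) (C : M.Cfg) : Prop :=
  ∃ L R : List M.Sym, c = ((C.1 : ℕ), L.map Fin.val, R.map Fin.val) ∧
    C.2 = Tape.mk' (ListBlank.mk L) (ListBlank.mk R)

theorem headI_map_val {n : ℕ} (L : List (Fin (n + 1))) :
    (L.map Fin.val).headI = ((ListBlank.mk L).head : ℕ) := by
  cases L with
  | nil => rfl
  | cons a L => rfl

theorem entry_descr (M : Machine) (q : Fin (M.states + 1)) (L : List ℕ) (R : List M.Sym) :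
    entry M.descr ((q : ℕ), L, R.map Fin.val) =
      (((M.δ q (ListBlank.mk R).head).1 : ℕ), ((M.δ q (ListBlank.mk R).head).2.1 : ℕ),
        Machine.dirCode (M.δ q (ListBlank.mk R).head).2.2) := by
  set s : M.Sym := (ListBlank.mk R).head with hs
  have hh : (R.map Fin.val).headI = (s : ℕ) := headI_map_val R
  simp only [entry, Machine.descr, hh]
  have key : (List.ofFn fun q => List.ofFn fun s =>
      (((M.δ q s).1 : ℕ), ((M.δ q s).2.1 : ℕ), Machine.dirCode (M.δ q s).2.2)).flatten =
      List.ofFn (fun i : Fin ((M.states + 1) * (M.symbols + 1)) =>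
        (((M.δ i.divNat i.modNat).1 : ℕ), ((M.δ i.divNat i.modNat).2.1 : ℕ),
          Machine.dirCode (M.δ i.divNat i.modNat).2.2)) := by
    rw [List.ofFn_mul]
    congr 1
    congr 1
    funext i
    congr 1
    funext j
    have h1 : (⟨i * (M.symbols + 1) + j, by
        calc (i : ℕ) * (M.symbols + 1) + j < (i + 1) * (M.symbols + 1) := by
              rw [Nat.add_mul, Nat.one_mul]; exact Nat.add_lt_add_left j.prop _
          _ ≤ _ := Nat.mul_le_mul_right _ i.prop⟩ :
          Fin ((M.states + 1) * (M.symbols + 1))).divNat = i := by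
      ext
      simp only [Fin.coe_divNat]
      rw [Nat.mul_comm, Nat.mul_add_div (Nat.succ_pos _), Nat.div_eq_of_lt j.prop, Nat.add_zero]
    have h2 : (⟨i * (M.symbols + 1) + j, by
        calc (i : ℕ) * (M.symbols + 1) + j < (i + 1) * (M.symbols + 1) := by
              rw [Nat.add_mul, Nat.one_mul]; exact Nat.add_lt_add_left j.prop _
          _ ≤ _ := Nat.mul_le_mul_right _ i.prop⟩ :
          Fin ((M.states + 1) * (M.symbols + 1))).modNat = j := by
      ext
      simp only [Fin.coe_modNat]
      rw [Nat.mul_comm, Nat.mul_add_mod, Nat.mod_eq_of_lt j.prop]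
    rw [h1, h2]
  rw [key]
  have hlt : (q : ℕ) * (M.symbols + 1) + (s : ℕ) < (M.states + 1) * (M.symbols + 1) := by
    calc (q : ℕ) * (M.symbols + 1) + s < (q + 1) * (M.symbols + 1) := by
          rw [Nat.add_mul, Nat.one_mul]; exact Nat.add_lt_add_left s.prop _
      _ ≤ _ := Nat.mul_le_mul_right _ q.prop
  rw [List.getElem?_ofFn, dif_pos hlt]
  have h1 : (⟨(q : ℕ) * (M.symbols + 1) + (s : ℕ), hlt⟩ :
      Fin ((M.states + 1) * (M.symbols + 1))).divNat = q := by
    ext
    simp only [Fin.coe_divNat]
    rw [Nat.mul_comm, Nat.mul_add_div (Nat.succ_pos _), Nat.div_eq_of_lt s.prop, Nat.add_zero]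
  have h2 : (⟨(q : ℕ) * (M.symbols + 1) + (s : ℕ), hlt⟩ :
      Fin ((M.states + 1) * (M.symbols + 1))).modNat = s := by
    ext
    simp only [Fin.coe_modNat]
    rw [Nat.mul_comm, Nat.mul_add_mod, Nat.mod_eq_of_lt s.prop]
  simp only [Option.getD_some, h1, h2]

theorem rep_step (M : Machine) (c : CCfg) (C : M.Cfg) (h : Rep M c C) :
    Rep M (cstep M.descr c) (M.step C) := by
  obtain ⟨L, R, rfl, hC⟩ := h
  obtain ⟨q, T⟩ := C
  simp only at hC
  subst hC
  unfold cstep
  rw [entry_descr]
  unfold Machine.step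
  simp only [Tape.mk'_head]
  generalize M.δ q (ListBlank.mk R).head = r
  obtain ⟨q', s', d⟩ := r
  cases d with
  | none =>
    refine ⟨L, s' :: R.tail, ?_, ?_⟩
    · simp [applyEntry, Machine.dirCode, List.map_tail]
    · simp only [Tape.write_mk', ListBlank.tail_mk, ListBlank.cons_mk]
  | some d =>
    cases d with
    | left =>
      refine ⟨L.tail, (ListBlank.mk L).head :: s' :: R.tail, ?_, ?_⟩
      · have hh : (L.map Fin.val).headI = ((L.headI : M.Sym) : ℕ) := headI_map_val L
        simp [applyEntry, Machine.dirCode, List.map_tail, hh]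
      · simp only [Tape.write_mk', Tape.move_left_mk', ListBlank.tail_mk, ListBlank.cons_mk]
    | right =>
      refine ⟨s' :: L, R.tail, ?_, ?_⟩
      · simp [applyEntry, Machine.dirCode, List.map_tail]
      · simp only [Tape.write_mk', Tape.move_right_mk', ListBlank.tail_mk, ListBlank.cons_mk,
          ListBlank.head_mk, List.headI_cons, List.tail_cons]

theorem rep_init (M : Machine) (w : List M.Sym) :
    Rep M (cinit (M.descr, w.map Fin.val)) (M.init w) :=
  ⟨[], w, rfl, rfl⟩

theorem rep_iterate (M : Machine) (w : List M.Sym) (k : ℕ) :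
    Rep M ((cstep M.descr)^[k] (cinit (M.descr, w.map Fin.val))) (M.step^[k] (M.init w)) := by
  induction k with
  | zero => exact rep_init M w
  | succ k ih =>
    rw [Function.iterate_succ_apply', Function.iterate_succ_apply']
    exact rep_step M _ _ ih

end TMComp

theorem haltAt_eq (M : Machine) (w : List M.Sym) (k : ℕ) :
    haltAt (M.descr, w.map Fin.val) k = M.halting (M.step^[k] (M.init w)).1 := by
  obtain ⟨L, R, h1, h2⟩ := rep_iterate M w k
  unfold haltAt
  simp only
  rw [h1]
  simp only [chalt, Machine.descr, List.getElem?_ofFn, Fin.is_lt, dif_pos, Option.getD_some,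
    Fin.eta]

theorem haltAt_iff (M : Machine) (w : List M.Sym) (k : ℕ) :
    haltAt (M.descr, w.map Fin.val) k = true ↔ M.halting (M.step^[k] (M.init w)).1 = true := by
  rw [haltAt_eq]

end Vale.Agent.P113
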