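import Vale.Agent.P113.Solution
import Vale.Agent.P113.TMComp

/-!
# P113: the force compiler
-/

open Set Function Filter Topology
open scoped ContDiff Real

namespace Vale.Agent.P113

/-! ### The halting real -/

open Classical in
/-- `1/(k+2)` if `k` is the first time at which `haltAt` holds, `0` if there is none. -/
noncomputable def haltReal (x : Machine.Descr × List ℕ) : ℝ :=
  if hx : ∃ k, haltAt x k = true then 1 / ((Nat.find hx : ℝ) + 2) else 0

theorem haltReal_pos {x : Machine.Descr × List ℕ} (hx : ∃ k, haltAt x k = true) :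
    0 < haltReal x := by
  rw [haltReal, dif_pos hx]; positivity

theorem haltReal_zero {x : Machine.Descr × List ℕ} (hx : ¬ ∃ k, haltAt x k = true) :
    haltReal x = 0 := by
  rw [haltReal, dif_neg hx]

theorem haltReal_le_one (x : Machine.Descr × List ℕ) : haltReal x ≤ 1 := by
  rw [haltReal]
  split_ifs with hx
  · rw [div_le_one (by positivity)]
    have : (0 : ℝ) ≤ (Nat.find hx : ℝ) := Nat.cast_nonneg _
    linarith
  · exact zero_le_one

/-- one step of the search for the first halting time -/
def searchStep (x : Machine.Descr × List ℕ) (p : ℕ × Option ℕ) : Option ℕ :=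
  if p.2.isSome = true then p.2 else if haltAt x p.1 = true then some p.1 else none

/-- `some s` if `s < n` is the first halting time -/
def firstHalt (x : Machine.Descr × List ℕ) (n : ℕ) : Option ℕ :=
  Nat.rec (motive := fun _ => Option ℕ) none (fun k o => searchStep x (k, o)) n

theorem firstHalt_succ (x : Machine.Descr × List ℕ) (n : ℕ) :
    firstHalt x (n + 1) = if (firstHalt x n).isSome = true then firstHalt x n
      else if haltAt x n = true then some n else none := rfl

theorem firstHalt_none (x : Machine.Descr × List ℕ) (n : ℕ) :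
    firstHalt x n = none ↔ ∀ k < n, haltAt x k = false := by
  induction n with
  | zero => simp [firstHalt]
  | succ n ih =>
    rw [firstHalt_succ]
    cases h : firstHalt x n with
    | none =>
      rw [h] at ih
      have ih' := ih.1 rfl
      simp only [Option.isSome_none, Bool.false_eq_true, if_false]
      constructor
      · intro h1 k hk
        rcases Nat.lt_succ_iff_lt_or_eq.1 hk with h2 | h2
        · exact ih' k h2
        · subst h2
          by_contra h3
          simp [h3] at h1
      · intro h1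
        simp [h1 n (Nat.lt_succ_self n)]
    | some s =>
      rw [h] at ih
      simp only [Option.isSome_some, if_true, reduceCtorEq, false_iff]
      intro h1
      have := ih.2 fun k hk => h1 k (hk.trans (Nat.lt_succ_self n))
      simp at this

theorem firstHalt_some (x : Machine.Descr × List ℕ) (n s : ℕ) (h : firstHalt x n = some s) :
    haltAt x s = true ∧ ∀ k < s, haltAt x k = false := by
  induction n with
  | zero => simp [firstHalt] at h
  | succ n ih =>
    rw [firstHalt_succ] at h
    cases h' : firstHalt x n with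
    | none =>
      rw [h'] at h
      simp only [Option.isSome_none, Bool.false_eq_true, if_false] at h
      split_ifs at h with h2
      · simp only [Option.some.injEq] at h
        subst h
        exact ⟨h2, (firstHalt_none x n).1 h'⟩
    | some s' =>
      rw [h'] at h
      simp only [Option.isSome_some, if_true] at h
      exact ih (by rw [h', h])

theorem primrec_searchStep : Primrec₂ searchStep := by
  have c1 : PrimrecPred (fun z : (Machine.Descr × List ℕ) × (ℕ × Option ℕ) =>
      z.2.2.isSome = true) :=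
    Primrec.eq.comp (Primrec.option_isSome.comp (Primrec.snd.comp Primrec.snd))
      (Primrec.const true)
  have h3 : Primrec (fun z : (Machine.Descr × List ℕ) × (ℕ × Option ℕ) => haltAt z.1 z.2.1) :=
    primrec_haltAt.comp Primrec.fst (Primrec.fst.comp Primrec.snd)
  have c2 : PrimrecPred (fun z : (Machine.Descr × List ℕ) × (ℕ × Option ℕ) =>
      haltAt z.1 z.2.1 = true) :=
    Primrec.eq.comp h3 (Primrec.const true)
  have s1 : Primrec (fun z : (Machine.Descr × List ℕ) × (ℕ × Option ℕ) => some z.2.1) :=
    Primrec.option_some.comp (Primrec.fst.comp Primrec.snd)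
  exact Primrec.ite c1 (Primrec.snd.comp Primrec.snd)
      (Primrec.ite c2 s1 (Primrec.const none))

theorem primrec_firstHalt : Primrec₂ firstHalt :=
  Primrec.nat_rec (f := fun _ : Machine.Descr × List ℕ => (none : Option ℕ)) (g := searchStep)
    (Primrec.const none) primrec_searchStep

/-- code of `1/(s+2)` or of `0` -/
def haltCode (o : Option ℕ) : Q3 := Option.casesOn o (0, 0, 0) (fun s => (1, 0, s + 1))

theorem primrec_haltCode : Primrec haltCode :=
  Primrec.option_casesOn Primrec.id (Primrec.const _)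
    (Primrec.pair (Primrec.const 1) (Primrec.pair (Primrec.const 0)
      (Primrec.succ.comp Primrec.snd)))

theorem CR_haltReal : CR haltReal := by
  have h1 : Computable (fun z : (Machine.Descr × List ℕ) × ℕ =>
      haltCode (firstHalt z.1 (z.2 + 1))) :=
    (primrec_haltCode.comp (primrec_firstHalt.comp Primrec.fst
      (Primrec.succ.comp Primrec.snd))).to_comp
  refine CR.lim (CR.rat h1) fun x n => ?_
  simp only
  cases h : firstHalt x (n + 1) with
  | none =>
    have e : rv (haltCode none) = 0 := by
      simp only [haltCode]; exact rv_zero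
    rw [e, sub_zero]
    have h2 := (firstHalt_none x (n + 1)).1 h
    rw [haltReal]
    split_ifs with hx
    · have h3 : n + 1 ≤ Nat.find hx := by
        rw [Nat.le_find_iff]
        intro m hm
        simp [h2 m hm]
      have h4 : (n : ℝ) + 1 ≤ (Nat.find hx : ℝ) := by exact_mod_cast h3
      rw [abs_of_nonneg (by positivity)]
      apply one_div_le_one_div_of_le (by positivity)
      linarith
    · simp; positivity
  | some s =>
    obtain ⟨h2, h3⟩ := firstHalt_some x _ _ h
    have hx : ∃ k, haltAt x k = true := ⟨s, h2⟩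
    have h4 : Nat.find hx = s := by
      rw [Nat.find_eq_iff]
      refine ⟨h2, fun k hk => by simp [h3 k hk]⟩
    have e : rv (haltCode (some s)) = 1 / ((s : ℝ) + 2) := by
      have : haltCode (some s) = (1, 0, s + 1) := rfl
      rw [this, rv_def]
      push_cast
      ring_nf
    rw [e, haltReal, dif_pos hx, h4, sub_self, abs_zero]
    positivity

/-! ### The derivatives of the force form a computable family -/

/-- inputs of a program: multi-index, component, point `(t, x, y, z)`, accuracy -/
abbrev Inp : Type := (ℕ × ℕ × ℕ × ℕ) × ℕ × Q3 × Q3 × Q3 × Q3 × Q3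

abbrev Par : Type := (Machine.Descr × List ℕ) × Inp

/-- `cos (2πy + c π/2)` -/
theorem CR_cosShift {c : Par → ℕ} (hc : Computable c) {q : Par → Q3} (hq : Computable q) :
    CR fun a => Real.cos (2 * π * rv (q a) + (c a : ℝ) * (π / 2)) := by
  refine CR.cos (((CR.pi.mul (CR.rat hq)).mul (CR.nat (g := fun _ => 2)
    (Computable.const 2))).add (((CR.nat hc).mul CR.pi).mul
      (CR.rat (g := fun _ => (1, 0, 1)) (Computable.const _))) |>.of_eq fun a => ?_)
  have : rv (1, 0, 1) = 1 / 2 := by rw [rv_def]; norm_num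
  rw [this]
  push_cast
  ring

/-- the value of the mixed derivative, as a function of the input and of the accuracy -/
noncomputable def FD (ν : ℝ) (z : Par) : ℝ :=
  if z.2.1.2.1 = 0 ∧ z.2.1.2.2.2 = 0 then
    (if z.2.2.1 = 0 then (if z.2.1.2.2.1 = 0 then cA z.2.1.1 (rv z.2.2.2.1) else 0) +
      (2 * π) ^ z.2.1.2.2.1 *
        (cB ν z.2.1.1 (rv z.2.2.2.1) *
          Real.cos (2 * π * rv z.2.2.2.2.2.1 + (z.2.1.2.2.1 : ℝ) * (π / 2)) +
        cC (haltReal z.1) z.2.1.1 (rv z.2.2.2.1) *
          Real.cos (2 * π * rv z.2.2.2.2.2.1 + ((z.2.1.2.2.1 + 1 : ℕ) : ℝ) * (π / 2)))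
    else if z.2.2.1 = 1 then
      (if z.2.1.2.2.1 = 0 then cE (haltReal z.1) z.2.1.1 (rv z.2.2.2.1) else 0) else 0)
  else 0

theorem CR_FD {ν : ℝ} (hν : IsComputableReal ν) : CR (FD ν) := by
  have a0 : Primrec (fun z : Par => z.2.1.1) :=
    Primrec.fst.comp (Primrec.fst.comp Primrec.snd)
  have a0s : Primrec (fun z : Par => z.2.1.1 + 1) := Primrec.succ.comp a0
  have a1 : Primrec (fun z : Par => z.2.1.2.1) :=
    Primrec.fst.comp (Primrec.snd.comp (Primrec.fst.comp Primrec.snd))
  have a2 : Primrec (fun z : Par => z.2.1.2.2.1) :=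
    Primrec.fst.comp (Primrec.snd.comp (Primrec.snd.comp (Primrec.fst.comp Primrec.snd)))
  have a2s : Primrec (fun z : Par => z.2.1.2.2.1 + 1) := Primrec.succ.comp a2
  have a3 : Primrec (fun z : Par => z.2.1.2.2.2) :=
    Primrec.snd.comp (Primrec.snd.comp (Primrec.snd.comp (Primrec.fst.comp Primrec.snd)))
  have b : Primrec (fun z : Par => z.2.2.1) := Primrec.fst.comp (Primrec.snd.comp Primrec.snd)
  have bt : Primrec (fun z : Par => z.2.2.2.1) :=
    Primrec.fst.comp (Primrec.snd.comp (Primrec.snd.comp Primrec.snd))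
  have by' : Primrec (fun z : Par => z.2.2.2.2.2.1) :=
    Primrec.fst.comp (Primrec.snd.comp (Primrec.snd.comp (Primrec.snd.comp
      (Primrec.snd.comp Primrec.snd))))
  have hr : CR (fun z : Par => haltReal z.1) := CR_haltReal.comp Computable.fst
  have hone : CR (fun z : Par => oneD z.2.1.1 (rv z.2.2.2.1)) :=
    (CR.ite (c := fun z : Par => z.2.1.1 = 0) (Primrec.eq.comp a0 (Primrec.const 0)).decide.to_comp
      CR.one CR.zero).of_eq fun z => by simp [oneD]
  have two : CR (fun _ : Par => (2 : ℝ)) :=
    (CR.nat (g := fun _ : Par => 2) (Computable.const 2)).of_eq fun _ => by norm_num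
  have tp : CR (fun _ : Par => 2 * π) := two.mul CR.pi
  have D1 : ∀ m, CR (fun z : Par => D (m + 1) z.2.1.1 (rv z.2.2.2.1)) := fun m =>
    CR_D m a0.to_comp bt.to_comp
  have D1' : ∀ m, CR (fun z : Par => D (m + 1) (z.2.1.1 + 1) (rv z.2.2.2.1)) := fun m =>
    CR_D m a0s.to_comp bt.to_comp
  have hA : CR (fun z : Par => cA z.2.1.1 (rv z.2.2.2.1)) := (D1' 0).neg
  have hB : CR (fun z : Par => cB ν z.2.1.1 (rv z.2.2.2.1)) :=
    (D1' 0).sub (((tp.mul tp).mul (CR.of_real hν)).mul (hone.sub (D1 0))) |>.of_eq fun z => by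
      simp only [cB]; ring
  have hC : CR (fun z : Par => cC (haltReal z.1) z.2.1.1 (rv z.2.2.2.1)) :=
    ((tp.mul hr).neg.mul (((D1 0).sub (two.mul (D1 1))).add (D1 2))) |>.of_eq fun z => by
      simp only [cC]
  have hE : CR (fun z : Par => cE (haltReal z.1) z.2.1.1 (rv z.2.2.2.1)) :=
    hr.mul ((D1' 0).sub (D1' 1))
  have c1 : Computable (fun z : Par => decide (z.2.1.2.1 = 0 ∧ z.2.1.2.2.2 = 0)) :=
    ((Primrec.eq.comp a1 (Primrec.const 0)).and (Primrec.eq.comp a3 (Primrec.const 0))).decide.to_comp
  have c2 : Computable (fun z : Par => decide (z.2.2.1 = 0)) :=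
    (Primrec.eq.comp b (Primrec.const 0)).decide.to_comp
  have c3 : Computable (fun z : Par => decide (z.2.2.1 = 1)) :=
    (Primrec.eq.comp b (Primrec.const 1)).decide.to_comp
  have c4 : Computable (fun z : Par => decide (z.2.1.2.2.1 = 0)) :=
    (Primrec.eq.comp a2 (Primrec.const 0)).decide.to_comp
  have s1 : CR (fun z : Par =>
      Real.cos (2 * π * rv z.2.2.2.2.2.1 + (z.2.1.2.2.1 : ℝ) * (π / 2))) :=
    CR_cosShift a2.to_comp by'.to_comp
  have s2 : CR (fun z : Par =>
      Real.cos (2 * π * rv z.2.2.2.2.2.1 + ((z.2.1.2.2.1 + 1 : ℕ) : ℝ) * (π / 2))) :=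
    CR_cosShift a2s.to_comp by'.to_comp
  exact CR.ite c1 (CR.ite c2 ((CR.ite c4 hA CR.zero).add
    ((tp.pow a2.to_comp).mul ((hB.mul s1).add (hC.mul s2))))
    (CR.ite c3 (CR.ite c4 hE CR.zero) CR.zero)) CR.zero

theorem FD_eq (ν : ℝ) (x : Machine.Descr × List ℕ) (α : ℕ × ℕ × ℕ × ℕ) (i : Fin 3)
    (t a b c ε : Q3) (ht : 0 ≤ rv t) :
    mixedDeriv α (fun s P => frc ν (haltReal x) s P i) (rv t) (proj ![rv a, rv b, rv c]) =
      FD ν (x, α, (i : ℕ), t, a, b, c, ε) := by
  rw [frc_mixedDeriv _ _ _ _ ht]
  have e : ∀ n, cosT n ((proj ![rv a, rv b, rv c]) 1) =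
      Real.cos (2 * π * rv b + (n : ℝ) * (π / 2)) := fun n => cosT_coe n (rv b)
  simp only [e, FD]

/-- The s-m-n theorem for encoded types. -/
theorem exists_curry {α β σ : Type*} [Primcodable α] [Primcodable β] [Primcodable σ]
    {G : α × β → σ} (hG : Computable G) :
    ∃ compile : α → Nat.Partrec.Code, Computable compile ∧
      ∀ x y, Encodable.encode (G (x, y)) ∈ (compile x).eval (Encodable.encode y) := by
  obtain ⟨c0, hc0⟩ := Nat.Partrec.Code.exists_code.1 hG
  refine ⟨fun x => Nat.Partrec.Code.curry c0 (Encodable.encode x), ?_, fun x y => ?_⟩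
  · exact (Nat.Partrec.Code.primrec₂_curry.comp (Primrec.const c0) Primrec.encode).to_comp
  · have e1 : (Encodable.decode (Encodable.encode (x, y)) : Option (α × β)) =
        some (x, y) := Encodable.encodek _
    have e2 : Nat.pair (Encodable.encode x) (Encodable.encode y) =
        Encodable.encode (x, y) := rfl
    rw [Nat.Partrec.Code.eval_curry, hc0, e2]
    simp only [e1]
    simp only [Part.coe_some, Part.bind_some, PFun.coe_val, Part.map_some, Part.mem_some_iff]

/-- From a computable family to a computable compiler. -/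
theorem exists_compile (F : Par → ℝ) (hF : CR F) :
    ∃ compile : Machine.Descr × List ℕ → Nat.Partrec.Code, Computable compile ∧
      ∀ x (inp : Inp), 0 < rv inp.2.2.2.2.2.2 → ∃ q : Q3,
        Encodable.encode q ∈ (compile x).eval (Encodable.encode inp) ∧
        |rv q - F (x, inp)| ≤ rv inp.2.2.2.2.2.2 := by
  obtain ⟨g, hg, H⟩ := hF
  have hε : Primrec (fun z : Par => z.2.2.2.2.2.2.2.2.2) :=
    Primrec.snd.comp (Primrec.snd.comp (Primrec.snd.comp (Primrec.snd.comp (Primrec.snd.comp
      (Primrec.snd.comp (Primrec.snd.comp (Primrec.snd.comp Primrec.snd)))))))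
  have hG : Computable (fun z : Par => g z z.2.2.2.2.2.2.2.2.2) :=
    hg.comp Computable.id hε.to_comp
  obtain ⟨compile, hc, hc'⟩ := exists_curry hG
  refine ⟨compile, hc, fun x inp hpos => ?_⟩
  · refine ⟨g (x, inp) inp.2.2.2.2.2.2.2.2, hc' x inp, ?_⟩
    · rw [abs_sub_comm]
      refine (H _ _).trans ?_
      generalize inp.2.2.2.2.2.2 = ε at hpos
      rw [rv_def] at hpos ⊢
      have h1 : (0 : ℝ) < (ε.2.2 : ℝ) + 1 := by positivity
      have h2 : (0 : ℝ) < (ε.1 : ℝ) - ε.2.1 := by
        by_contra h3
        have : ((ε.1 : ℝ) - ε.2.1) / (ε.2.2 + 1) ≤ 0 :=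
          div_nonpos_of_nonpos_of_nonneg (not_lt.1 h3) h1.le
        linarith
      have h3 : ε.2.1 + 1 ≤ ε.1 := by
        have : (ε.2.1 : ℝ) < ε.1 := by linarith
        exact_mod_cast this
      have h4 : (ε.2.1 : ℝ) + 1 ≤ ε.1 := by exact_mod_cast h3
      gcongr
      linarith

end Vale.Agent.P113
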