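import Mathlib

/-!
# P113: definitions

Forced Navier-Stokes equations on the flat three-torus, Turing machines, effective forces and
force compilers.
-/

open Set Function
open scoped ContDiff

namespace Vale.Agent.P113

/-! ## The torus and fields on it -/

/-- The flat torus `(ℝ/ℤ)³`. -/
abbrev T3 : Type := Fin 3 → UnitAddCircle

/-- Vectors of `ℝ³`. -/
abbrev V3 : Type := Fin 3 → ℝ

/-- The covering map `ℝ³ → (ℝ/ℤ)³`. -/
def proj (y : V3) : T3 := fun i => (y i : UnitAddCircle)

/-- The point `x + s e_j` of the torus. -/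
def shift (x : T3) (j : Fin 3) (s : ℝ) : T3 := x + Pi.single j (s : UnitAddCircle)

/-- Smoothness on `[0,∞) × 𝕋³` of a time dependent field, read on the covering space `ℝ × ℝ³`. -/
def SmoothField {W : Type} [NormedAddCommGroup W] [NormedSpace ℝ W] (g : ℝ → T3 → W) : Prop :=
  ContDiffOn ℝ ∞ (fun z : ℝ × V3 => g z.1 (proj z.2)) (Ici (0 : ℝ) ×ˢ univ)

/-- `∂_j g`, the partial derivative in the `j`-th space direction. -/
noncomputable def spaceDeriv (j : Fin 3) (g : ℝ → T3 → ℝ) : ℝ → T3 → ℝ :=
  fun t x => deriv (fun s : ℝ => g t (shift x j s)) 0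

/-- `∂_t g` on `[0,∞)` (one-sided at `t = 0`). -/
noncomputable def timeDeriv (g : ℝ → T3 → ℝ) : ℝ → T3 → ℝ :=
  fun t x => derivWithin (fun s : ℝ => g s x) (Ici 0) t

/-- The mixed derivative `∂_t^{α₀} ∂_1^{α₁} ∂_2^{α₂} ∂_3^{α₃} g`. -/
noncomputable def mixedDeriv (α : ℕ × ℕ × ℕ × ℕ) (g : ℝ → T3 → ℝ) : ℝ → T3 → ℝ :=
  timeDeriv^[α.1] ((spaceDeriv 0)^[α.2.1] ((spaceDeriv 1)^[α.2.2.1] ((spaceDeriv 2)^[α.2.2.2] g)))

/-! ## The Navier-Stokes system, started from rest -/

/-- `(u, p)` is a classical solution on `[0, T]` of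
`∂_t u + (u·∇)u = -∇p + ν Δu + f`, `div u = 0`, `u(0,·) = 0`:
the functions `ut`, `du j`, `ddu j k`, `dp j` are `∂_t u`, `∂_j u`, `∂_k ∂_j u`, `∂_j p`; they and
`u`, `p` are continuous on `[0,T] × 𝕋³`, the equations hold pointwise and `p` has mean zero. -/
def IsClassicalSolution (ν : ℝ) (f : ℝ → T3 → V3) (T : ℝ) (u : ℝ → T3 → V3) (p : ℝ → T3 → ℝ) :
    Prop :=
  ∃ (ut : ℝ → T3 → V3) (du : Fin 3 → ℝ → T3 → V3) (ddu : Fin 3 → Fin 3 → ℝ → T3 → V3)
    (dp : Fin 3 → ℝ → T3 → ℝ),
    (∀ t ∈ Icc 0 T, ∀ x, HasDerivWithinAt (fun s => u s x) (ut t x) (Icc 0 T) t) ∧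
    (∀ t ∈ Icc 0 T, ∀ x j, HasDerivAt (fun s : ℝ => u t (shift x j s)) (du j t x) 0) ∧
    (∀ t ∈ Icc 0 T, ∀ x j k, HasDerivAt (fun s : ℝ => du j t (shift x k s)) (ddu j k t x) 0) ∧
    (∀ t ∈ Icc 0 T, ∀ x j, HasDerivAt (fun s : ℝ => p t (shift x j s)) (dp j t x) 0) ∧
    ContinuousOn (uncurry u) (Icc 0 T ×ˢ univ) ∧
    ContinuousOn (uncurry ut) (Icc 0 T ×ˢ univ) ∧
    (∀ j, ContinuousOn (uncurry (du j)) (Icc 0 T ×ˢ univ)) ∧
    (∀ j k, ContinuousOn (uncurry (ddu j k)) (Icc 0 T ×ˢ univ)) ∧
    ContinuousOn (uncurry p) (Icc 0 T ×ˢ univ) ∧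
    (∀ j, ContinuousOn (uncurry (dp j)) (Icc 0 T ×ˢ univ)) ∧
    (∀ t ∈ Icc 0 T, ∀ x i,
      ut t x i + ∑ j, u t x j * du j t x i = - dp i t x + ν * ∑ j, ddu j j t x i + f t x i) ∧
    (∀ t ∈ Icc 0 T, ∀ x, ∑ j, du j t x j = 0) ∧
    (∀ x, u 0 x = 0) ∧
    (∀ t ∈ Icc 0 T, ∫ x, p t x = 0)

/-- `X` is the trajectory of the point `a` under the velocity field `u`: it starts at `a` and, for
a lift `Y` of it to `ℝ³`, `Y'(t) = u(t, X(t))` at every time `t ≥ 0`. -/
def IsTrajectory (u : ℝ → T3 → V3) (a : T3) (X : ℝ → T3) : Prop :=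
  X 0 = a ∧ ∃ Y : ℝ → V3, (∀ t, 0 ≤ t → X t = proj (Y t)) ∧
    ∀ t, 0 ≤ t → HasDerivWithinAt Y (u t (X t)) (Ici 0) t

/-! ## Turing machines -/

/-- A deterministic one-tape Turing machine: its states are `0, …, states`, its tape symbols are
`0, …, symbols` with `0` the blank.  In state `q` reading `s` it goes to the state `(δ q s).1`,
writes `(δ q s).2.1` and moves its head by `(δ q s).2.2` (`none`: the head stays). -/
structure Machine where
  states : ℕ
  symbols : ℕ
  start : Fin (states + 1)
  halting : Fin (states + 1) → Bool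
  δ : Fin (states + 1) → Fin (symbols + 1) →
    Fin (states + 1) × Fin (symbols + 1) × Option Turing.Dir

namespace Machine

/-- The tape alphabet. -/
abbrev Sym (M : Machine) : Type := Fin (M.symbols + 1)

/-- A configuration: the state and the two-sided tape with its head position. -/
abbrev Cfg (M : Machine) : Type := Fin (M.states + 1) × Turing.Tape M.Sym

/-- One step of the machine. -/
def step (M : Machine) (c : M.Cfg) : M.Cfg :=
  let r := M.δ c.1 c.2.head
  let T' := c.2.write r.2.1
  (r.1, match r.2.2 with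
    | none => T'
    | some d => T'.move d)

/-- The initial configuration on the input `w`: the word `w` on an otherwise blank two-sided tape,
with the head at its first cell. -/
def init (M : Machine) (w : List M.Sym) : M.Cfg := (M.start, Turing.Tape.mk₁ w)

/-- `M` halts on `w`: after finitely many steps, possibly none, it is in a halting state. -/
def Halts (M : Machine) (w : List M.Sym) : Prop :=
  ∃ k : ℕ, M.halting (M.step^[k] (M.init w)).1 = true

/-- Finite descriptions of machines, as tuples and lists of natural numbers. -/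
abbrev Descr : Type := ℕ × ℕ × ℕ × List Bool × List (ℕ × ℕ × ℕ)

/-- `none`, `left`, `right` are coded by `0, 1, 2`. -/
def dirCode : Option Turing.Dir → ℕ
  | none => 0
  | some Turing.Dir.left => 1
  | some Turing.Dir.right => 2

/-- The description of a machine: number of states and of symbols (minus one), start state, list
of the values of `halting`, and table of the values of `δ`. -/
def descr (M : Machine) : Descr :=
  (M.states, M.symbols, M.start, List.ofFn M.halting,
    (List.ofFn fun q => List.ofFn fun s =>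
      (((M.δ q s).1 : ℕ), ((M.δ q s).2.1 : ℕ), dirCode (M.δ q s).2.2)).flatten)

end Machine

/-! ## Effective forces and force compilers -/

/-- The rational number `(a - b)/(c + 1)` coded by the triple `(a, b, c)` of natural numbers. Every
rational number has such codes. -/
def ratVal (q : ℕ × ℕ × ℕ) : ℚ := ((q.1 : ℚ) - q.2.1) / (q.2.2 + 1)

/-- A real number is computable if some algorithm approximates it to any accuracy `1/(k+1)`. -/
def IsComputableReal (ν : ℝ) : Prop :=
  ∃ g : ℕ → ℕ × ℕ × ℕ, Computable g ∧ ∀ k : ℕ, |ν - ratVal (g k)| ≤ 1 / (k + 1)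

/-- The program `c` returns each mixed derivative of each component of `f` at any rational point
`(t, (x, y, z))`, `t ≥ 0`, to any prescribed rational accuracy `ε > 0`. Programs are Mathlib's
`Nat.Partrec.Code`. -/
def ComputesDerivatives (c : Nat.Partrec.Code) (f : ℝ → T3 → V3) : Prop :=
  ∀ (α : ℕ × ℕ × ℕ × ℕ) (i : Fin 3) (t x y z ε : ℕ × ℕ × ℕ), 0 ≤ ratVal t → 0 < ratVal ε →
    ∃ q : ℕ × ℕ × ℕ,
      Encodable.encode q ∈ c.eval (Encodable.encode (α, (i : ℕ), t, x, y, z, ε)) ∧
      |(ratVal q : ℝ) - mixedDeriv α (fun s P => f s P i) (ratVal t)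
        (proj ![(ratVal x : ℝ), (ratVal y : ℝ), (ratVal z : ℝ)])| ≤ ratVal ε

/-- A force compiler: an algorithm (`compile`, a total computable function) that on the
description of a machine `M` and of an input `w` outputs a program that computes the mixed
derivatives of the smooth force `force M w`; for `t ≥ T₀` this force is periodic in time and
depends on `M` only. -/
structure ForceCompiler where
  compile : Machine.Descr × List ℕ → Nat.Partrec.Code
  computable_compile : Computable compile
  force : (M : Machine) → List M.Sym → ℝ → T3 → V3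
  smooth : ∀ M w, SmoothField (force M w)
  effective : ∀ (M : Machine) (w : List M.Sym),
    ComputesDerivatives (compile (M.descr, w.map Fin.val)) (force M w)
  T₀ : ℝ
  period : Machine → ℝ
  period_pos : ∀ M, 0 < period M
  periodic : ∀ M w t x, T₀ ≤ t → force M w (t + period M) x = force M w t x
  machine_only : ∀ M w w' t x, T₀ ≤ t → force M w t x = force M w' t x

end Vale.Agent.P113
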