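import Vale.Agent.P113.Defs

/-!
# P113: reading the configurations of a machine off a point of the circle
-/

namespace Vale.Agent.P113

namespace Machine

/-- The base of the positional system in which configurations of `M` are written: twice the number
of digits `0, …, (states + 2) (symbols + 1)`. -/
def radix (M : Machine) : ℕ := 2 * (1 + (M.states + 2) * (M.symbols + 1))

/-- The word of digits of a piece of tape: the cells to the left of the head (`L`, nearest first),
the cell `a` under the head, the machine being in state `q`, and the cells to the right of the
head (`R`). A cell with symbol `s` has the digit `s + 1`, the cell under the head has the digit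
`1 + (q + 1) (symbols + 1) + a`. -/
def word (M : Machine) (q : Fin (M.states + 1)) (L : List M.Sym) (a : M.Sym) (R : List M.Sym) :
    List ℕ :=
  L.reverse.map (fun s : M.Sym => (s : ℕ) + 1) ++
    (1 + ((q : ℕ) + 1) * (M.symbols + 1) + a) :: R.map (fun s : M.Sym => (s : ℕ) + 1)

/-- The number `∑ d_i radix^(-i)`, `i = 1, 2, …`, for a word `d_1 d_2 …` of digits, divided by
`8 radix`. -/
noncomputable def value (M : Machine) (l : List ℕ) : ℝ :=
  l.foldr (fun (d : ℕ) (v : ℝ) => ((d : ℝ) + v) / M.radix) 0 / (8 * M.radix)

/-- The point `y` of the circle displays the configuration `c` on `n` cells of tape: the `n` cells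
contain the head, all cells outside of them are blank, and `y` is the value of the word of their
digits, written from left to right. -/
def Displays (M : Machine) (c : M.Cfg) (n : ℕ) (y : UnitAddCircle) : Prop :=
  ∃ L R : List M.Sym, L.length + 1 + R.length = n ∧
    c.2 = Turing.Tape.mk' (Turing.ListBlank.mk L) (Turing.ListBlank.mk (c.2.head :: R)) ∧
    y = (M.value (M.word c.1 L c.2.head R) : UnitAddCircle)

/-- The point that the initial phase prepares for the input `w`: value of the initial word, unit
of length of the queue, empty history. -/
noncomputable def inputPoint (M : Machine) (w : List M.Sym) : V3 :=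
  ![M.value (M.word M.start [] w.headI w.tail),
    (1 / (M.radix : ℝ)) ^ (max 1 w.length + 3) / (8 * M.radix), 0]

end Machine

end Vale.Agent.P113
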