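import Vale.Agent.P113.Defs

/-!
# P113: uniqueness of classical solutions (energy method)
-/

open Set Function MeasureTheory Filter
open scoped ContDiff Topology

namespace Vale.Agent.P113

namespace Uniq

theorem shift_zero (x : T3) (j : Fin 3) : shift x j 0 = x := by
  simp [shift]

theorem shift_shift (x : T3) (j : Fin 3) (a b : ℝ) :
    shift (shift x j a) j b = shift x j (a + b) := by
  unfold shift
  rw [add_assoc, ← Pi.single_add, ← AddCircle.coe_add]

theorem continuous_shift (j : Fin 3) (s : ℝ) : Continuous fun x : T3 => shift x j s := by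
  unfold shift
  exact continuous_id.add continuous_const

theorem hasDerivAt_shift {W : Type} [NormedAddCommGroup W] [NormedSpace ℝ W] {g g' : T3 → W}
    {j : Fin 3} (h : ∀ x, HasDerivAt (fun s : ℝ => g (shift x j s)) (g' x) 0) (x : T3) (s : ℝ) :
    HasDerivAt (fun s : ℝ => g (shift x j s)) (g' (shift x j s)) s := by
  have h1 := h (shift x j s)
  have h0 : s - s = 0 := sub_self s
  rw [← h0] at h1
  have h2 := HasDerivAt.comp_sub_const s s h1
  refine h2.congr_of_eventuallyEq (Eventually.of_forall fun r => ?_)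
  simp only [shift_shift]
  congr 2
  ring

theorem integral_shift (g : T3 → ℝ) (j : Fin 3) (s : ℝ) : ∫ x, g (shift x j s) = ∫ x, g x := by
  unfold shift
  exact integral_add_right_eq_self g _

theorem bdd_of_continuous {g : T3 → ℝ} (hg : Continuous g) : ∃ C : ℝ, ∀ x, ‖g x‖ ≤ C := by
  obtain ⟨C, hC⟩ := isCompact_univ.exists_bound_of_continuousOn hg.continuousOn
  exact ⟨C, fun x => hC x (mem_univ x)⟩

theorem integrable_of_continuous {g : T3 → ℝ} (hg : Continuous g) :
    Integrable g (volume : Measure T3) :=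
  hg.integrable_of_hasCompactSupport (HasCompactSupport.of_compactSpace g)

/-- The integral over the torus of a directional derivative is zero. -/
theorem integral_deriv_zero {g g' : T3 → ℝ} {j : Fin 3} (hg : Continuous g) (hg' : Continuous g')
    (h : ∀ x, HasDerivAt (fun s : ℝ => g (shift x j s)) (g' x) 0) : ∫ x, g' x = 0 := by
  obtain ⟨C, hC⟩ := bdd_of_continuous hg'
  have key := (hasDerivAt_integral_of_dominated_loc_of_deriv_le (μ := (volume : Measure T3))
    (F := fun (s : ℝ) x => g (shift x j s)) (F' := fun (s : ℝ) x => g' (shift x j s))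
    (x₀ := (0 : ℝ)) (s := univ) (bound := fun _ => C) univ_mem
    (Eventually.of_forall fun s => (hg.comp (continuous_shift j s)).aestronglyMeasurable)
    (integrable_of_continuous (hg.comp (continuous_shift j 0)))
    (hg'.comp (continuous_shift j 0)).aestronglyMeasurable
    (Eventually.of_forall fun x s _ => hC _) (integrable_const C)
    (Eventually.of_forall fun x s _ => hasDerivAt_shift h x s)).2
  simp only [integral_shift, shift_zero] at key
  exact key.unique (hasDerivAt_const _ _)

/-- Continuous functions with zero integral. -/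
def ZI (g : T3 → ℝ) : Prop := Continuous g ∧ ∫ x, g x = 0

theorem ZI.add {g h : T3 → ℝ} (hg : ZI g) (hh : ZI h) : ZI (fun x => g x + h x) :=
  ⟨hg.1.add hh.1, by
    rw [integral_add (integrable_of_continuous hg.1) (integrable_of_continuous hh.1), hg.2, hh.2,
      add_zero]⟩

theorem ZI.const_mul {g : T3 → ℝ} (hg : ZI g) (c : ℝ) : ZI (fun x => c * g x) :=
  ⟨continuous_const.mul hg.1, by rw [integral_const_mul, hg.2, mul_zero]⟩

theorem ZI.sum {ι : Type} [Fintype ι] {g : ι → T3 → ℝ} (hg : ∀ i, ZI (g i)) :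
    ZI (fun x => ∑ i, g i x) :=
  ⟨continuous_finsetSum _ fun i _ => (hg i).1, by
    rw [integral_finsetSum _ fun i _ => integrable_of_continuous (hg i).1]
    exact Finset.sum_eq_zero fun i _ => (hg i).2⟩

theorem young {a b c K : ℝ} (hc : |c| ≤ K) : -(a * b * c) ≤ K * (a ^ 2 + b ^ 2) / 2 := by
  have h1 : -(a * b * c) ≤ |a * b| * |c| := by
    rw [← abs_mul]
    exact neg_le_abs _
  have h2 : |a * b| * |c| ≤ |a * b| * K := mul_le_mul_of_nonneg_left hc (abs_nonneg _)
  have hK : 0 ≤ K := (abs_nonneg c).trans hc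
  have h3 : |a * b| ≤ (a ^ 2 + b ^ 2) / 2 := by
    rw [abs_le]
    constructor <;> nlinarith [sq_nonneg (a + b), sq_nonneg (a - b)]
  nlinarith

/-- The energy estimate at a fixed time. -/
theorem slice_estimate {ν K : ℝ} (hν : 0 ≤ ν) {u v ut vt : T3 → V3} {du dv : Fin 3 → T3 → V3}
    {ddu ddv : Fin 3 → Fin 3 → T3 → V3} {p q : T3 → ℝ} {dp dq : Fin 3 → T3 → ℝ} {f : T3 → V3}
    (cu : Continuous u) (cv : Continuous v) (cut : Continuous ut) (cvt : Continuous vt)
    (cdu : ∀ j, Continuous (du j)) (cdv : ∀ j, Continuous (dv j))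
    (cddu : ∀ j k, Continuous (ddu j k)) (cddv : ∀ j k, Continuous (ddv j k))
    (cp : Continuous p) (cq : Continuous q)
    (cdp : ∀ j, Continuous (dp j)) (cdq : ∀ j, Continuous (dq j))
    (hdu : ∀ x j, HasDerivAt (fun s : ℝ => u (shift x j s)) (du j x) 0)
    (hdv : ∀ x j, HasDerivAt (fun s : ℝ => v (shift x j s)) (dv j x) 0)
    (hddu : ∀ x j k, HasDerivAt (fun s : ℝ => du j (shift x k s)) (ddu j k x) 0)
    (hddv : ∀ x j k, HasDerivAt (fun s : ℝ => dv j (shift x k s)) (ddv j k x) 0)
    (hdp : ∀ x j, HasDerivAt (fun s : ℝ => p (shift x j s)) (dp j x) 0)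
    (hdq : ∀ x j, HasDerivAt (fun s : ℝ => q (shift x j s)) (dq j x) 0)
    (eu : ∀ x i, ut x i + ∑ j, u x j * du j x i = - dp i x + ν * ∑ j, ddu j j x i + f x i)
    (ev : ∀ x i, vt x i + ∑ j, v x j * dv j x i = - dq i x + ν * ∑ j, ddv j j x i + f x i)
    (divu : ∀ x, ∑ j, du j x j = 0) (divv : ∀ x, ∑ j, dv j x j = 0)
    (hK : ∀ x i j, |dv j x i| ≤ K) :
    ∫ x, ∑ i, (u x i - v x i) * (ut x i - vt x i) ≤ 3 * K * ∫ x, ∑ i, (u x i - v x i) ^ 2 := by
  have cu' : ∀ i, Continuous fun x => u x i := fun i => (continuous_apply i).comp cu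
  have cv' : ∀ i, Continuous fun x => v x i := fun i => (continuous_apply i).comp cv
  have cut' : ∀ i, Continuous fun x => ut x i := fun i => (continuous_apply i).comp cut
  have cvt' : ∀ i, Continuous fun x => vt x i := fun i => (continuous_apply i).comp cvt
  have cdu' : ∀ j i, Continuous fun x => du j x i := fun j i => (continuous_apply i).comp (cdu j)
  have cdv' : ∀ j i, Continuous fun x => dv j x i := fun j i => (continuous_apply i).comp (cdv j)
  have cddu' : ∀ j k i, Continuous fun x => ddu j k x i :=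
    fun j k i => (continuous_apply i).comp (cddu j k)
  have cddv' : ∀ j k i, Continuous fun x => ddv j k x i :=
    fun j k i => (continuous_apply i).comp (cddv j k)
  have hdu' : ∀ x j i, HasDerivAt (fun s : ℝ => u (shift x j s) i) (du j x i) 0 :=
    fun x j i => (hasDerivAt_pi.1 (hdu x j)) i
  have hdv' : ∀ x j i, HasDerivAt (fun s : ℝ => v (shift x j s) i) (dv j x i) 0 :=
    fun x j i => (hasDerivAt_pi.1 (hdv x j)) i
  have hddu' : ∀ x j k i, HasDerivAt (fun s : ℝ => du j (shift x k s) i) (ddu j k x i) 0 :=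
    fun x j k i => (hasDerivAt_pi.1 (hddu x j k)) i
  have hddv' : ∀ x j k i, HasDerivAt (fun s : ℝ => dv j (shift x k s) i) (ddv j k x i) 0 :=
    fun x j k i => (hasDerivAt_pi.1 (hddv x j k)) i
  -- first family
  have I1 : ∀ i j, ∫ x, (du j x j * (u x i - v x i) ^ 2
      + u x j * (2 * (u x i - v x i) * (du j x i - dv j x i))) = 0 := by
    intro i j
    refine integral_deriv_zero (g := fun x => u x j * (u x i - v x i) ^ 2) (j := j) ?_ ?_ ?_
    · exact (cu' j).mul (((cu' i).sub (cv' i)).pow 2)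
    · exact ((cdu' j j).mul (((cu' i).sub (cv' i)).pow 2)).add
        ((cu' j).mul ((continuous_const.mul ((cu' i).sub (cv' i))).mul
          ((cdu' j i).sub (cdv' j i))))
    · intro x
      have h1 := ((hdu' x j i).sub (hdv' x j i)).pow 2
      have h2 := (hdu' x j j).mul h1
      refine h2.congr_deriv ?_
      simp [shift_zero]
  -- second family
  have I2 : ∀ j, ∫ x, ((du j x j - dv j x j) * (p x - q x)
      + (u x j - v x j) * (dp j x - dq j x)) = 0 := by
    intro j
    refine integral_deriv_zero (g := fun x => (u x j - v x j) * (p x - q x)) (j := j) ?_ ?_ ?_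
    · exact ((cu' j).sub (cv' j)).mul (cp.sub cq)
    · exact (((cdu' j j).sub (cdv' j j)).mul (cp.sub cq)).add
        (((cu' j).sub (cv' j)).mul ((cdp j).sub (cdq j)))
    · intro x
      have h2 := ((hdu' x j j).sub (hdv' x j j)).mul ((hdp x j).sub (hdq x j))
      refine h2.congr_deriv ?_
      simp [shift_zero]
  -- third family
  have I3 : ∀ i j, ∫ x, ((du j x i - dv j x i) * (du j x i - dv j x i)
      + (u x i - v x i) * (ddu j j x i - ddv j j x i)) = 0 := by
    intro i j
    refine integral_deriv_zero (g := fun x => (u x i - v x i) * (du j x i - dv j x i))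
      (j := j) ?_ ?_ ?_
    · exact ((cu' i).sub (cv' i)).mul ((cdu' j i).sub (cdv' j i))
    · exact (((cdu' j i).sub (cdv' j i)).mul ((cdu' j i).sub (cdv' j i))).add
        (((cu' i).sub (cv' i)).mul ((cddu' j j i).sub (cddv' j j i)))
    · intro x
      have h2 := ((hdu' x j i).sub (hdv' x j i)).mul ((hddu' x j j i).sub (hddv' x j j i))
      refine h2.congr_deriv ?_
      simp [shift_zero]
  have Z1 : ∀ i j, ZI (fun x => du j x j * (u x i - v x i) ^ 2
      + u x j * (2 * (u x i - v x i) * (du j x i - dv j x i))) := fun i j =>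
    ⟨((cdu' j j).mul (((cu' i).sub (cv' i)).pow 2)).add
        ((cu' j).mul ((continuous_const.mul ((cu' i).sub (cv' i))).mul
          ((cdu' j i).sub (cdv' j i)))), I1 i j⟩
  have Z2 : ∀ j, ZI (fun x => (du j x j - dv j x j) * (p x - q x)
      + (u x j - v x j) * (dp j x - dq j x)) := fun j =>
    ⟨(((cdu' j j).sub (cdv' j j)).mul (cp.sub cq)).add
        (((cu' j).sub (cv' j)).mul ((cdp j).sub (cdq j))), I2 j⟩
  have Z3 : ∀ i j, ZI (fun x => (du j x i - dv j x i) * (du j x i - dv j x i)
      + (u x i - v x i) * (ddu j j x i - ddv j j x i)) := fun i j =>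
    ⟨(((cdu' j i).sub (cdv' j i)).mul ((cdu' j i).sub (cdv' j i))).add
        (((cu' i).sub (cv' i)).mul ((cddu' j j i).sub (cddv' j j i))), I3 i j⟩
  have ZR := ((ZI.sum fun i => ZI.sum fun j => (Z1 i j).const_mul (-1 / 2)).add
    (ZI.sum fun j => (Z2 j).const_mul (-1))).add
    (ZI.sum fun i => ZI.sum fun j => (Z3 i j).const_mul ν)
  set R : T3 → ℝ := fun x =>
    ((∑ i, ∑ j, (-1 / 2) * (du j x j * (u x i - v x i) ^ 2
      + u x j * (2 * (u x i - v x i) * (du j x i - dv j x i)))) +
    ∑ j, (-1) * ((du j x j - dv j x j) * (p x - q x) + (u x j - v x j) * (dp j x - dq j x))) +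
    ∑ i, ∑ j, ν * ((du j x i - dv j x i) * (du j x i - dv j x i)
      + (u x i - v x i) * (ddu j j x i - ddv j j x i)) with hR
  have cw2 : Continuous fun x => ∑ i, (u x i - v x i) ^ 2 :=
    continuous_finsetSum _ fun i _ => ((cu' i).sub (cv' i)).pow 2
  have cwt : Continuous fun x => ∑ i, (u x i - v x i) * (ut x i - vt x i) :=
    continuous_finsetSum _ fun i _ => ((cu' i).sub (cv' i)).mul ((cut' i).sub (cvt' i))
  have hle : ∀ x, ∑ i, (u x i - v x i) * (ut x i - vt x i)
      ≤ R x + 3 * K * ∑ i, (u x i - v x i) ^ 2 := by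
    intro x
    have hid : ∑ i, (u x i - v x i) * (ut x i - vt x i) = R x
        + (∑ i, ∑ j, -((u x i - v x i) * (u x j - v x j) * dv j x i))
        - ν * ∑ i, ∑ j, (du j x i - dv j x i) ^ 2 := by
      have e0 := eu x 0
      have e1 := eu x 1
      have e2 := eu x 2
      have f0 := ev x 0
      have f1 := ev x 1
      have f2 := ev x 2
      have g1 := divu x
      have g2 := divv x
      simp only [hR, Fin.sum_univ_three] at e0 e1 e2 f0 f1 f2 g1 g2 ⊢
      linear_combination (u x 0 - v x 0) * (e0 - f0) + (u x 1 - v x 1) * (e1 - f1)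
        + (u x 2 - v x 2) * (e2 - f2)
        + (1 / 2) * ((u x 0 - v x 0) ^ 2 + (u x 1 - v x 1) ^ 2 + (u x 2 - v x 2) ^ 2) * g1
        + (p x - q x) * (g1 - g2)
    have hy : (∑ i, ∑ j, -((u x i - v x i) * (u x j - v x j) * dv j x i))
        ≤ 3 * K * ∑ i, (u x i - v x i) ^ 2 := by
      calc (∑ i, ∑ j, -((u x i - v x i) * (u x j - v x j) * dv j x i))
          ≤ ∑ i, ∑ j, K * ((u x i - v x i) ^ 2 + (u x j - v x j) ^ 2) / 2 :=
            Finset.sum_le_sum fun i _ => Finset.sum_le_sum fun j _ => young (hK x i j)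
        _ = 3 * K * ∑ i, (u x i - v x i) ^ 2 := by
            simp only [Fin.sum_univ_three]
            ring
    have hn : 0 ≤ ν * ∑ i, ∑ j, (du j x i - dv j x i) ^ 2 :=
      mul_nonneg hν (Finset.sum_nonneg fun i _ => Finset.sum_nonneg fun j _ => sq_nonneg _)
    linarith
  calc ∫ x, ∑ i, (u x i - v x i) * (ut x i - vt x i)
      ≤ ∫ x, (R x + 3 * K * ∑ i, (u x i - v x i) ^ 2) :=
        integral_mono (integrable_of_continuous cwt)
          ((integrable_of_continuous ZR.1).add
            ((integrable_of_continuous cw2).const_mul (3 * K))) hle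
    _ = 3 * K * ∫ x, ∑ i, (u x i - v x i) ^ 2 := by
        rw [integral_add (integrable_of_continuous ZR.1)
          ((integrable_of_continuous cw2).const_mul (3 * K)), ZR.2, zero_add, integral_const_mul]

/-- A continuous nonnegative function on the torus with zero integral vanishes. -/
theorem eq_zero_of_integral {g : T3 → ℝ} (hg : Continuous g) (h0 : ∀ x, 0 ≤ g x)
    (hi : ∫ x, g x = 0) : ∀ x, g x = 0 := by
  have h1 : g =ᵐ[volume] 0 :=
    (integral_eq_zero_iff_of_nonneg h0 (integrable_of_continuous hg)).1 hi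
  have h2 : g = 0 := (Continuous.ae_eq_iff_eq volume hg continuous_zero).1 h1
  intro x
  rw [h2]
  rfl

/-- A function on the torus with vanishing directional derivatives is constant. -/
theorem const_of_deriv_zero {g : T3 → ℝ}
    (h : ∀ x j, HasDerivAt (fun s : ℝ => g (shift x j s)) 0 0) : ∀ x y, g x = g y := by
  have h1 : ∀ x j (s : ℝ), g (shift x j s) = g x := by
    intro x j s
    have hd : ∀ r, HasDerivAt (fun s : ℝ => g (shift x j s)) 0 r := fun r =>
      hasDerivAt_shift (g' := fun _ => 0) (fun y => h y j) x r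
    have := is_const_of_deriv_eq_zero (fun r => (hd r).differentiableAt)
      (fun r => (hd r).deriv) s 0
    simpa [shift_zero] using this
  intro x y
  obtain ⟨a, ha⟩ := QuotientAddGroup.mk_surjective (y 0 - x 0)
  obtain ⟨b, hb⟩ := QuotientAddGroup.mk_surjective (y 1 - x 1)
  obtain ⟨c, hc⟩ := QuotientAddGroup.mk_surjective (y 2 - x 2)
  have : y = shift (shift (shift x 0 a) 1 b) 2 c := by
    funext i
    have ha' : ((a : ℝ) : UnitAddCircle) = y 0 - x 0 := ha
    have hb' : ((b : ℝ) : UnitAddCircle) = y 1 - x 1 := hb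
    have hc' : ((c : ℝ) : UnitAddCircle) = y 2 - x 2 := hc
    fin_cases i <;> simp [shift, ha', hb', hc']
  rw [this, h1, h1, h1]

end Uniq

open Uniq in
/-- Uniqueness of classical solutions: the energy method. -/
theorem classical_unique {ν T : ℝ} (hν : 0 ≤ ν) (hT : 0 < T) {f : ℝ → T3 → V3}
    {u v : ℝ → T3 → V3} {p q : ℝ → T3 → ℝ} (hu : IsClassicalSolution ν f T u p)
    (hv : IsClassicalSolution ν f T v q) :
    ∀ t ∈ Icc 0 T, ∀ x, u t x = v t x ∧ p t x = q t x := by
  obtain ⟨ut, du, ddu, dp, hut, hdu, hddu, hdp, cu, cut, cdu, cddu, cp, cdp, eu, divu, u0, mp⟩ := hu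
  obtain ⟨vt, dv, ddv, dq, hvt, hdv, hddv, hdq, cv, cvt, cdv, cddv, cq, cdq, ev, divv, v0, mq⟩ := hv
  have slice : ∀ {W : Type} [TopologicalSpace W] {g : ℝ → T3 → W},
      ContinuousOn (uncurry g) (Icc 0 T ×ˢ univ) → ∀ t ∈ Icc 0 T, Continuous (g t) := by
    intro W _ g hg t ht
    exact hg.comp_continuous (f := fun x => (t, x)) (by fun_prop) (fun x => ⟨ht, mem_univ _⟩)
  have tslice : ∀ {W : Type} [TopologicalSpace W] {g : ℝ → T3 → W},
      ContinuousOn (uncurry g) (Icc 0 T ×ˢ univ) → ∀ x, ContinuousOn (fun t => g t x) (Icc 0 T) := by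
    intro W _ g hg x
    exact hg.comp (f := fun t => (t, x)) (by fun_prop) (fun t ht => ⟨ht, mem_univ _⟩)
  have bound : ∀ {g : ℝ → T3 → ℝ}, ContinuousOn (uncurry g) (Icc 0 T ×ˢ univ) →
      ∃ C : ℝ, ∀ t ∈ Icc 0 T, ∀ x, ‖g t x‖ ≤ C := by
    intro g hg
    obtain ⟨C, hC⟩ := (isCompact_Icc.prod isCompact_univ).exists_bound_of_continuousOn hg
    exact ⟨C, fun t ht x => hC (t, x) ⟨ht, mem_univ _⟩⟩
  have comp : ∀ {g : ℝ → T3 → V3}, ContinuousOn (uncurry g) (Icc 0 T ×ˢ univ) →
      ∀ i, ContinuousOn (uncurry fun t x => g t x i) (Icc 0 T ×ˢ univ) := by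
    intro g hg i
    exact (continuous_apply i).comp_continuousOn hg
  -- a common bound for `dv`
  have hK1 : ∀ i j, ∃ C : ℝ, ∀ t ∈ Icc 0 T, ∀ x, |dv j t x i| ≤ C := by
    intro i j
    obtain ⟨C, hC⟩ := bound (comp (cdv j) i)
    exact ⟨C, fun t ht x => hC t ht x⟩
  choose C hC using hK1
  obtain ⟨K, hK⟩ : ∃ K, ∀ t ∈ Icc 0 T, ∀ x i j, |dv j t x i| ≤ K := by
    refine ⟨∑ i, ∑ j, |C i j|, fun t ht x i j => (hC i j t ht x).trans ((le_abs_self _).trans ?_)⟩
    refine le_trans ?_ (Finset.single_le_sum (f := fun i => ∑ j, |C i j|)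
      (fun i _ => Finset.sum_nonneg fun j _ => abs_nonneg _) (Finset.mem_univ i))
    exact Finset.single_le_sum (f := fun j => |C i j|) (fun j _ => abs_nonneg _)
      (Finset.mem_univ j)
  -- the energy
  set E : ℝ → ℝ := fun t => ∫ x, ∑ i, (u t x i - v t x i) ^ 2 with hE
  have cw : ContinuousOn (uncurry fun t x => ∑ i, (u t x i - v t x i) ^ 2) (Icc 0 T ×ˢ univ) := by
    have : (uncurry fun t x => ∑ i, (u t x i - v t x i) ^ 2)
        = fun z : ℝ × T3 => ∑ i, (u z.1 z.2 i - v z.1 z.2 i) ^ 2 := rfl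
    rw [this]
    exact continuousOn_finsetSum _ fun i _ => ((comp cu i).sub (comp cv i)).pow 2
  have cwt : ContinuousOn (uncurry fun t x => ∑ i, 2 * (u t x i - v t x i) * (ut t x i - vt t x i))
      (Icc 0 T ×ˢ univ) := by
    have : (uncurry fun t x => ∑ i, 2 * (u t x i - v t x i) * (ut t x i - vt t x i))
        = fun z : ℝ × T3 => ∑ i, 2 * (u z.1 z.2 i - v z.1 z.2 i) * (ut z.1 z.2 i - vt z.1 z.2 i) :=
      rfl
    rw [this]
    exact continuousOn_finsetSum _ fun i _ =>
      (continuousOn_const.mul ((comp cu i).sub (comp cv i))).mul ((comp cut i).sub (comp cvt i))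
  have cE : ContinuousOn E (Icc 0 T) := by
    obtain ⟨B, hB⟩ := bound cw
    refine continuousOn_of_dominated (bound := fun _ => B)
      (fun t ht => (slice cw t ht).aestronglyMeasurable)
      (fun t ht => Eventually.of_forall fun x => hB t ht x) (integrable_const B)
      (Eventually.of_forall fun x => tslice cw x)
  have dE : ∀ t ∈ Ioo 0 T,
      HasDerivAt E (∫ x, ∑ i, 2 * (u t x i - v t x i) * (ut t x i - vt t x i)) t := by
    intro t ht
    obtain ⟨B, hB⟩ := bound cwt
    have hnhds : Ioo 0 T ∈ 𝓝 t := Ioo_mem_nhds ht.1 ht.2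
    refine (hasDerivAt_integral_of_dominated_loc_of_deriv_le (μ := (volume : Measure T3))
      (F := fun (s : ℝ) x => ∑ i, (u s x i - v s x i) ^ 2)
      (F' := fun (s : ℝ) x => ∑ i, 2 * (u s x i - v s x i) * (ut s x i - vt s x i))
      (x₀ := t) (s := Ioo 0 T) (bound := fun _ => B) hnhds ?_ ?_ ?_ ?_ (integrable_const B) ?_).2
    · filter_upwards [hnhds] with s hs
      exact (slice cw s (Ioo_subset_Icc_self hs)).aestronglyMeasurable
    · exact integrable_of_continuous (slice cw t (Ioo_subset_Icc_self ht))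
    · exact (slice cwt t (Ioo_subset_Icc_self ht)).aestronglyMeasurable
    · exact Eventually.of_forall fun x s hs => hB s (Ioo_subset_Icc_self hs) x
    · refine Eventually.of_forall fun x s hs => ?_
      have hIcc : Icc 0 T ∈ 𝓝 s := Icc_mem_nhds hs.1 hs.2
      have h1 : HasDerivAt (fun r => u r x) (ut s x) s :=
        (hut s (Ioo_subset_Icc_self hs) x).hasDerivAt hIcc
      have h2 : HasDerivAt (fun r => v r x) (vt s x) s :=
        (hvt s (Ioo_subset_Icc_self hs) x).hasDerivAt hIcc
      have h3 : ∀ i ∈ (Finset.univ : Finset (Fin 3)),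
          HasDerivAt (fun r => (u r x i - v r x i) ^ 2)
            (2 * (u s x i - v s x i) * (ut s x i - vt s x i)) s := by
        intro i _
        have h4 := ((hasDerivAt_pi.1 h1 i).sub (hasDerivAt_pi.1 h2 i)).pow 2
        refine h4.congr_deriv ?_
        simp
      exact HasDerivAt.fun_sum h3
  have E0 : E 0 = 0 := by
    simp only [hE, u0, v0]
    simp
  have Enn : ∀ t, 0 ≤ E t := fun t =>
    integral_nonneg fun x => Finset.sum_nonneg fun i _ => sq_nonneg _
  have hest : ∀ t ∈ Ioo 0 T,
      ∫ x, ∑ i, 2 * (u t x i - v t x i) * (ut t x i - vt t x i) ≤ 6 * K * E t := by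
    intro t ht
    have ht' := Ioo_subset_Icc_self ht
    have h := slice_estimate (ν := ν) (K := K) hν (f := f t) (slice cu t ht') (slice cv t ht')
      (slice cut t ht') (slice cvt t ht') (fun j => slice (cdu j) t ht')
      (fun j => slice (cdv j) t ht') (fun j k => slice (cddu j k) t ht')
      (fun j k => slice (cddv j k) t ht') (slice cp t ht') (slice cq t ht')
      (fun j => slice (cdp j) t ht') (fun j => slice (cdq j) t ht')
      (fun x j => hdu t ht' x j) (fun x j => hdv t ht' x j)
      (fun x j k => hddu t ht' x j k) (fun x j k => hddv t ht' x j k)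
      (fun x j => hdp t ht' x j) (fun x j => hdq t ht' x j)
      (fun x i => eu t ht' x i) (fun x i => ev t ht' x i)
      (fun x => divu t ht' x) (fun x => divv t ht' x) (fun x i j => hK t ht' x i j)
    have h2 : ∫ x, ∑ i, 2 * (u t x i - v t x i) * (ut t x i - vt t x i)
        = 2 * ∫ x, ∑ i, (u t x i - v t x i) * (ut t x i - vt t x i) := by
      rw [← integral_const_mul]
      congr 1
      funext x
      rw [Finset.mul_sum]
      exact Finset.sum_congr rfl fun i _ => by ring
    rw [h2]
    have h3 : E t = ∫ x, ∑ i, (u t x i - v t x i) ^ 2 := rfl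
    rw [h3]
    linarith
  have Ez : ∀ t ∈ Icc 0 T, E t = 0 := by
    intro t ht
    have hanti : AntitoneOn (fun s => Real.exp (-(6 * K) * s) * E s) (Icc 0 T) := by
      have hder : ∀ s ∈ Ioo 0 T, HasDerivAt (fun s => Real.exp (-(6 * K) * s) * E s)
          (Real.exp (-(6 * K) * s) * (-(6 * K)) * E s + Real.exp (-(6 * K) * s) *
            ∫ x, ∑ i, 2 * (u s x i - v s x i) * (ut s x i - vt s x i)) s := by
        intro s hs
        have h1 : HasDerivAt (fun s : ℝ => -(6 * K) * s) (-(6 * K)) s := by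
          simpa using (hasDerivAt_id s).const_mul (-(6 * K))
        exact h1.exp.mul (dE s hs)
      refine antitoneOn_of_deriv_nonpos (convex_Icc 0 T) ?_ ?_ ?_
      · exact (Continuous.continuousOn (by fun_prop)).mul cE
      · intro s hs
        rw [interior_Icc] at hs
        exact (hder s hs).differentiableAt.differentiableWithinAt
      · intro s hs
        rw [interior_Icc] at hs
        rw [(hder s hs).deriv]
        have h1 := hest s hs
        have h2 := Real.exp_pos (-(6 * K) * s)
        nlinarith [mul_le_mul_of_nonneg_left h1 h2.le]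
    have h1 := hanti ⟨le_rfl, hT.le⟩ ht ht.1
    simp only [E0, mul_zero] at h1
    have h2 := Real.exp_pos (-(6 * K) * t)
    have h3 := Enn t
    nlinarith [mul_nonneg h2.le h3]
  have huv : ∀ t ∈ Icc 0 T, ∀ x, u t x = v t x := by
    intro t ht x
    have h1 := eq_zero_of_integral (slice cw t ht)
      (fun x => Finset.sum_nonneg fun i _ => sq_nonneg _) (Ez t ht) x
    funext i
    have h2 := (Finset.sum_eq_zero_iff_of_nonneg (fun i _ => sq_nonneg _)).1 h1 i
      (Finset.mem_univ i)
    exact sub_eq_zero.1 (pow_eq_zero_iff (two_ne_zero)|>.1 h2)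
  have hut' : ∀ t ∈ Icc 0 T, ∀ x, ut t x = vt t x := by
    intro t ht x
    have h1 := hut t ht x
    have h2 := hvt t ht x
    have h3 : HasDerivWithinAt (fun s => u s x) (vt t x) (Icc 0 T) t :=
      h2.congr (fun s hs => huv s hs x) (huv t ht x)
    exact (uniqueDiffOn_Icc hT t ht).eq_deriv _ h1 h3
  have hdu' : ∀ t ∈ Icc 0 T, ∀ x j, du j t x = dv j t x := by
    intro t ht x j
    have h1 := hdu t ht x j
    have h2 : HasDerivAt (fun s : ℝ => u t (shift x j s)) (dv j t x) 0 := by
      simp only [huv t ht]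
      exact hdv t ht x j
    exact h1.unique h2
  have hddu' : ∀ t ∈ Icc 0 T, ∀ x j k, ddu j k t x = ddv j k t x := by
    intro t ht x j k
    have h1 := hddu t ht x j k
    have h2 : HasDerivAt (fun s : ℝ => du j t (shift x k s)) (ddv j k t x) 0 := by
      simp only [hdu' t ht]
      exact hddv t ht x j k
    exact h1.unique h2
  have hdp' : ∀ t ∈ Icc 0 T, ∀ x i, dp i t x = dq i t x := by
    intro t ht x i
    have h1 := eu t ht x i
    have h2 := ev t ht x i
    simp only [huv t ht, hut' t ht, hdu' t ht, hddu' t ht] at h1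
    linarith
  intro t ht x
  refine ⟨huv t ht x, ?_⟩
  have hc := const_of_deriv_zero (g := fun x => p t x - q t x) (fun x j => by
    have h := (hdp t ht x j).sub (hdq t ht x j)
    rw [hdp' t ht x j, sub_self] at h
    exact h)
  have hint : ∫ y, (p t y - q t y) = 0 := by
    rw [integral_sub (integrable_of_continuous (slice cp t ht))
      (integrable_of_continuous (slice cq t ht)), mp t ht, mq t ht, sub_zero]
  have hconst : ∫ y : T3, (p t y - q t y) = ∫ y : T3, (p t x - q t x) := by
    congr 1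
    funext y
    exact hc y x
  rw [hconst, integral_const] at hint
  have hvol : (volume : Measure T3).real univ = 1 := by
    rw [Measure.real, volume_pi, Measure.pi_univ]
    simp
  rw [hvol, one_smul] at hint
  linarith

end Vale.Agent.P113
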