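import Vale.Agent.P113.Phase
import Vale.Agent.P113.Unique

/-!
# P113: the velocity, the force, and the solution of the Navier-Stokes system
-/

open Set Function Filter Topology
open scoped ContDiff Real

namespace Vale.Agent.P113

/-! ### The functions `cos (2 π y + c π / 2)` on the circle -/

theorem cos_periodic (c : ℕ) :
    Function.Periodic (fun y : ℝ => Real.cos (2 * π * y + c * (π / 2))) 1 := by
  intro y
  simp only
  rw [show 2 * π * (y + 1) + c * (π / 2) = 2 * π * y + c * (π / 2) + 2 * π by ring]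
  exact Real.cos_add_two_pi _

noncomputable def cosT (c : ℕ) : UnitAddCircle → ℝ := (cos_periodic c).lift

theorem cosT_coe (c : ℕ) (y : ℝ) :
    cosT c (y : UnitAddCircle) = Real.cos (2 * π * y + c * (π / 2)) := by
  simp [cosT, Function.Periodic.lift_coe]

theorem cosT_continuous (c : ℕ) : Continuous (cosT c) := by
  have h : Continuous (cosT c ∘ ((↑) : ℝ → UnitAddCircle)) := by
    have e : (cosT c ∘ ((↑) : ℝ → UnitAddCircle)) =
        fun y : ℝ => Real.cos (2 * π * y + c * (π / 2)) := by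
      funext y; exact cosT_coe c y
    rw [e]; fun_prop
  exact (QuotientAddGroup.isOpenQuotientMap_mk.isQuotientMap.continuous_iff).2 h

theorem cosT_hasDerivAt (c : ℕ) (x : UnitAddCircle) (s : ℝ) :
    HasDerivAt (fun s : ℝ => cosT c (x + (s : UnitAddCircle)))
      (2 * π * cosT (c + 1) (x + (s : UnitAddCircle))) s := by
  obtain ⟨y, rfl⟩ := QuotientAddGroup.mk_surjective x
  have e : (fun s : ℝ => cosT c ((QuotientAddGroup.mk y : UnitAddCircle) + (s : UnitAddCircle))) =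
      fun s : ℝ => Real.cos (2 * π * (y + s) + c * (π / 2)) := by
    funext s; rw [← cosT_coe]; rfl
  have e2 : cosT (c + 1) ((QuotientAddGroup.mk y : UnitAddCircle) + (s : UnitAddCircle)) =
      Real.cos (2 * π * (y + s) + (c + 1 : ℕ) * (π / 2)) := by
    rw [← cosT_coe]; rfl
  rw [e, e2]
  have h1 : HasDerivAt (fun s : ℝ => 2 * π * (y + s) + c * (π / 2)) (2 * π) s := by
    have := (((hasDerivAt_id s).const_add y).const_mul (2 * π)).add_const (c * (π / 2))
    simpa using this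
  refine (h1.cos).congr_deriv ?_
  have h2 : 2 * π * (y + s) + (c + 1 : ℕ) * (π / 2) = (2 * π * (y + s) + c * (π / 2)) + π / 2 := by
    push_cast; ring
  rw [h2, Real.cos_add_pi_div_two]
  ring

theorem cosT_add_two (c : ℕ) (x : UnitAddCircle) : cosT (c + 2) x = - cosT c x := by
  obtain ⟨y, rfl⟩ := QuotientAddGroup.mk_surjective x
  have e1 : cosT (c + 2) (QuotientAddGroup.mk y : UnitAddCircle) =
      Real.cos (2 * π * y + (c + 2 : ℕ) * (π / 2)) := cosT_coe _ _
  have e2 : cosT c (QuotientAddGroup.mk y : UnitAddCircle) =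
      Real.cos (2 * π * y + c * (π / 2)) := cosT_coe _ _
  rw [e1, e2, show 2 * π * y + (c + 2 : ℕ) * (π / 2) = (2 * π * y + c * (π / 2)) + π by
    push_cast; ring, Real.cos_add_pi]

theorem shift_same (x : T3) (j : Fin 3) (s : ℝ) : shift x j s j = x j + (s : UnitAddCircle) := by
  simp [shift]

theorem shift_ne (x : T3) {j k : Fin 3} (hjk : k ≠ j) (s : ℝ) : shift x j s k = x k := by
  simp [shift, Pi.single_eq_of_ne hjk]

/-! ### A class of fields closed under differentiation -/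

/-- `A(t) + B(t) cos(2πy + cπ/2) + C(t) cos(2πy + (c+1)π/2)`, `y` the second coordinate. -/
noncomputable def GF (A B C : ℝ → ℝ) (c : ℕ) : ℝ → T3 → ℝ :=
  fun t x => A t + B t * cosT c (x 1) + C t * cosT (c + 1) (x 1)

theorem GF_hasDerivAt_one (A B C : ℝ → ℝ) (c : ℕ) (t : ℝ) (x : T3) :
    HasDerivAt (fun s : ℝ => GF A B C c t (shift x 1 s))
      (GF 0 (fun t => 2 * π * B t) (fun t => 2 * π * C t) (c + 1) t x) 0 := by
  simp only [GF, shift_same]
  have h1 := (cosT_hasDerivAt c (x 1) 0).const_mul (B t)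
  have h2 := (cosT_hasDerivAt (c + 1) (x 1) 0).const_mul (C t)
  have h3 := (h1.const_add (A t)).add h2
  refine h3.congr_deriv ?_
  simp
  ring

theorem GF_hasDerivAt_ne (A B C : ℝ → ℝ) (c : ℕ) (t : ℝ) (x : T3) {j : Fin 3} (hj : j ≠ 1) :
    HasDerivAt (fun s : ℝ => GF A B C c t (shift x j s)) 0 0 := by
  simp only [GF, shift_ne x (Ne.symm hj)]
  exact hasDerivAt_const _ _

theorem spaceDeriv_GF_one (A B C : ℝ → ℝ) (c : ℕ) :
    spaceDeriv 1 (GF A B C c) =
      GF 0 (fun t => 2 * π * B t) (fun t => 2 * π * C t) (c + 1) := by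
  funext t x
  exact (GF_hasDerivAt_one A B C c t x).deriv

theorem spaceDeriv_GF_ne (A B C : ℝ → ℝ) (c : ℕ) {j : Fin 3} (hj : j ≠ 1) :
    spaceDeriv j (GF A B C c) = GF 0 0 0 c := by
  funext t x
  simp only [spaceDeriv]
  rw [(GF_hasDerivAt_ne A B C c t x hj).deriv]
  simp [GF]

theorem spaceDeriv_iter_ne (A B C : ℝ → ℝ) (c : ℕ) {j : Fin 3} (hj : j ≠ 1) (n : ℕ) :
    (spaceDeriv j)^[n] (GF A B C c) =
      if n = 0 then GF A B C c else GF 0 0 0 c := by
  induction n with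
  | zero => simp
  | succ n ih =>
    rw [Function.iterate_succ_apply', ih]
    split_ifs <;> simp_all [spaceDeriv_GF_ne]

theorem spaceDeriv_iter_one (A B C : ℝ → ℝ) (c n : ℕ) :
    (spaceDeriv 1)^[n] (GF A B C c) =
      GF (fun t => if n = 0 then A t else 0) (fun t => (2 * π) ^ n * B t)
        (fun t => (2 * π) ^ n * C t) (c + n) := by
  induction n with
  | zero => simp
  | succ n ih =>
    rw [Function.iterate_succ_apply', ih, spaceDeriv_GF_one]
    funext t x
    simp only [GF, Nat.succ_ne_zero, if_false, Pi.zero_apply, pow_succ]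
    rw [show c + n + 1 = c + (n + 1) by ring]
    ring

theorem timeDeriv_iter (A B C : ℕ → ℝ → ℝ) (hA : ∀ k t, HasDerivAt (A k) (A (k + 1) t) t)
    (hB : ∀ k t, HasDerivAt (B k) (B (k + 1) t) t) (hC : ∀ k t, HasDerivAt (C k) (C (k + 1) t) t)
    (c n : ℕ) {t : ℝ} (ht : 0 ≤ t) (x : T3) :
    timeDeriv^[n] (GF (A 0) (B 0) (C 0) c) t x = GF (A n) (B n) (C n) c t x := by
  induction n generalizing t with
  | zero => rfl
  | succ n ih =>
    rw [Function.iterate_succ_apply']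
    have h1 : timeDeriv (timeDeriv^[n] (GF (A 0) (B 0) (C 0) c)) t x =
        derivWithin (fun s => GF (A n) (B n) (C n) c s x) (Ici 0) t := by
      simp only [timeDeriv]
      exact derivWithin_congr (fun s hs => ih hs) (ih ht)
    rw [h1]
    have h2 : HasDerivAt (fun s => GF (A n) (B n) (C n) c s x)
        (GF (A (n + 1)) (B (n + 1)) (C (n + 1)) c t x) t := by
      simp only [GF]
      exact ((hA n t).add ((hB n t).mul_const _)).add ((hC n t).mul_const _)
    exact h2.hasDerivWithinAt.derivWithin (uniqueDiffOn_Ici 0 t ht)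

theorem mixedDeriv_GF (A B C : ℕ → ℝ → ℝ) (hA : ∀ k t, HasDerivAt (A k) (A (k + 1) t) t)
    (hB : ∀ k t, HasDerivAt (B k) (B (k + 1) t) t) (hC : ∀ k t, HasDerivAt (C k) (C (k + 1) t) t)
    (α : ℕ × ℕ × ℕ × ℕ) {t : ℝ} (ht : 0 ≤ t) (x : T3) :
    mixedDeriv α (GF (A 0) (B 0) (C 0) 0) t x =
      if α.2.1 = 0 ∧ α.2.2.2 = 0 then
        (if α.2.2.1 = 0 then A α.1 t else 0) +
          (2 * π) ^ α.2.2.1 * (B α.1 t * cosT α.2.2.1 (x 1) + C α.1 t * cosT (α.2.2.1 + 1) (x 1))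
      else 0 := by
  obtain ⟨a0, a1, a2, a3⟩ := α
  simp only [mixedDeriv]
  rw [spaceDeriv_iter_ne _ _ _ _ (by decide : (2 : Fin 3) ≠ 1)]
  have hz : ∀ k t, HasDerivAt ((fun _ _ => 0 : ℕ → ℝ → ℝ) k)
      ((fun _ _ => 0 : ℕ → ℝ → ℝ) (k + 1) t) t := fun k t => hasDerivAt_const _ _
  by_cases h3 : a3 = 0
  · rw [if_pos h3, spaceDeriv_iter_one, spaceDeriv_iter_ne _ _ _ _ (by decide : (0 : Fin 3) ≠ 1)]
    by_cases h1 : a1 = 0
    · rw [if_pos h1, if_pos ⟨h1, h3⟩]
      have hB' : ∀ k t, HasDerivAt ((fun k t => (2 * π) ^ a2 * B k t : ℕ → ℝ → ℝ) k)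
          ((fun k t => (2 * π) ^ a2 * B k t : ℕ → ℝ → ℝ) (k + 1) t) t :=
        fun k t => (hB k t).const_mul _
      have hC' : ∀ k t, HasDerivAt ((fun k t => (2 * π) ^ a2 * C k t : ℕ → ℝ → ℝ) k)
          ((fun k t => (2 * π) ^ a2 * C k t : ℕ → ℝ → ℝ) (k + 1) t) t :=
        fun k t => (hC k t).const_mul _
      by_cases h2 : a2 = 0
      · subst h2
        simp only [if_true, pow_zero, one_mul, zero_add]
        have := timeDeriv_iter A B C hA hB hC 0 a0 ht x
        simp only [GF, zero_add] at this ⊢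
        rw [this]; ring
      · simp only [if_neg h2, zero_add]
        have := timeDeriv_iter (fun _ _ => 0) (fun k t => (2 * π) ^ a2 * B k t)
          (fun k t => (2 * π) ^ a2 * C k t) hz hB' hC' a2 a0 ht x
        simp only [GF] at this ⊢
        rw [this]; ring
    · rw [if_neg h1, if_neg (by tauto)]
      have := timeDeriv_iter (fun _ _ => 0) (fun _ _ => 0) (fun _ _ => 0) hz hz hz (0 + a2) a0 ht x
      simp only [GF, zero_mul, add_zero] at this ⊢
      exact this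
  · rw [if_neg h3, spaceDeriv_iter_one, spaceDeriv_iter_ne _ _ _ _ (by decide : (0 : Fin 3) ≠ 1),
      if_neg (show ¬ (a1 = 0 ∧ a3 = 0) from fun h => h3 h.2)]
    have := timeDeriv_iter (fun _ _ => 0) (fun _ _ => 0) (fun _ _ => 0) hz hz hz (0 + a2) a0 ht x
    have e : GF (fun t => if a2 = 0 then (0 : ℝ → ℝ) t else 0)
        (fun t => (2 * π) ^ a2 * (0 : ℝ → ℝ) t) (fun t => (2 * π) ^ a2 * (0 : ℝ → ℝ) t) (0 + a2) =
        GF (fun _ => 0) (fun _ => 0) (fun _ => 0) (0 + a2) := by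
      congr 1 <;> funext t <;> simp
    have e' : GF 0 0 0 (0 + a2) = GF (fun _ => 0) (fun _ => 0) (fun _ => 0) (0 + a2) := rfl
    rw [e', e, ite_self, this]
    simp [GF]

/-! ### The velocity and the force -/

/-- the constant function `1` and its derivatives -/
def oneD (k : ℕ) : ℝ → ℝ := fun _ => if k = 0 then 1 else 0

theorem oneD_hasDerivAt (k : ℕ) (t : ℝ) : HasDerivAt (oneD k) (oneD (k + 1) t) t := by
  have e : oneD (k + 1) t = 0 := by simp [oneD]
  rw [e]
  exact hasDerivAt_const _ _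

noncomputable def cA (k : ℕ) (t : ℝ) : ℝ := - D 1 (k + 1) t
noncomputable def cB (ν : ℝ) (k : ℕ) (t : ℝ) : ℝ :=
  D 1 (k + 1) t - (2 * π) ^ 2 * ν * (oneD k t - D 1 k t)
noncomputable def cC (r : ℝ) (k : ℕ) (t : ℝ) : ℝ :=
  -(2 * π * r) * (D 1 k t - 2 * D 2 k t + D 3 k t)
noncomputable def cE (r : ℝ) (k : ℕ) (t : ℝ) : ℝ := r * (D 1 (k + 1) t - D 2 (k + 1) t)

theorem cA_hasDerivAt (k : ℕ) (t : ℝ) : HasDerivAt (cA k) (cA (k + 1) t) t :=
  (D_hasDerivAt 1 (k + 1) t).neg

theorem cB_hasDerivAt (ν : ℝ) (k : ℕ) (t : ℝ) : HasDerivAt (cB ν k) (cB ν (k + 1) t) t :=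
  (D_hasDerivAt 1 (k + 1) t).sub (((oneD_hasDerivAt k t).sub (D_hasDerivAt 1 k t)).const_mul _)

theorem cC_hasDerivAt (r : ℝ) (k : ℕ) (t : ℝ) : HasDerivAt (cC r k) (cC r (k + 1) t) t :=
  (((D_hasDerivAt 1 k t).sub ((D_hasDerivAt 2 k t).const_mul 2)).add
    (D_hasDerivAt 3 k t)).const_mul _

theorem cE_hasDerivAt (r : ℝ) (k : ℕ) (t : ℝ) : HasDerivAt (cE r k) (cE r (k + 1) t) t :=
  ((D_hasDerivAt 1 (k + 1) t).sub (D_hasDerivAt 2 (k + 1) t)).const_mul _

/-- The velocity field: a shear flow in the first direction that is switched on during `[0,1]`,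
plus, during `[0,1]`, a translation in the second direction proportional to `r`. -/
noncomputable def vel (r : ℝ) (t : ℝ) (x : T3) : V3 :=
  ![(1 - h t) * (1 - cosT 0 (x 1)), r * (h t - h t ^ 2), 0]

/-- The force. -/
noncomputable def frc (ν r : ℝ) (t : ℝ) (x : T3) : V3 :=
  ![GF (cA 0) (cB ν 0) (cC r 0) 0 t x, GF (cE r 0) 0 0 0 t x, 0]

theorem frc_mixedDeriv (ν r : ℝ) (α : ℕ × ℕ × ℕ × ℕ) (i : Fin 3) {t : ℝ} (ht : 0 ≤ t) (x : T3) :
    mixedDeriv α (fun s P => frc ν r s P i) t x =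
      if α.2.1 = 0 ∧ α.2.2.2 = 0 then
        (if (i : ℕ) = 0 then (if α.2.2.1 = 0 then cA α.1 t else 0) +
          (2 * π) ^ α.2.2.1 * (cB ν α.1 t * cosT α.2.2.1 (x 1) +
            cC r α.1 t * cosT (α.2.2.1 + 1) (x 1))
        else if (i : ℕ) = 1 then (if α.2.2.1 = 0 then cE r α.1 t else 0) else 0)
      else 0 := by
  have hz : ∀ k t, HasDerivAt ((fun _ _ => 0 : ℕ → ℝ → ℝ) k)
      ((fun _ _ => 0 : ℕ → ℝ → ℝ) (k + 1) t) t := fun k t => hasDerivAt_const _ _
  fin_cases i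
  · exact mixedDeriv_GF cA (cB ν) (cC r) cA_hasDerivAt (cB_hasDerivAt ν) (cC_hasDerivAt r) α ht x
  · have := mixedDeriv_GF (cE r) (fun _ _ => 0) (fun _ _ => 0) (cE_hasDerivAt r) hz hz α ht x
    have e : (fun (s : ℝ) (P : T3) => frc ν r s P 1) =
        GF (cE r 0) (fun _ => 0) (fun _ => 0) 0 := by
      funext s P; simp [frc, GF]
    simp only [Fin.mk_one, Fin.isValue]
    rw [e, this]
    simp
  · have := mixedDeriv_GF (fun _ _ => 0) (fun _ _ => 0) (fun _ _ => 0) hz hz hz α ht x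
    simp only [zero_mul, add_zero, mul_zero, ite_self] at this
    have e : (fun (s : ℝ) (P : T3) => frc ν r s P 2) = GF (fun _ => 0) (fun _ => 0) (fun _ => 0) 0 := by
      funext s P; simp [frc, GF]
    simp only [Fin.reduceFinMk, Fin.isValue]
    rw [e, this]
    simp

end Vale.Agent.P113
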