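import Vale.Agent.P113.CompReal2

/-!
# P113: the smooth switch `h` and the values of its derivatives
-/

open Set Function Filter Topology
open scoped ContDiff

namespace Vale.Agent.P113

/-- `h t = exp (1 - 1/(1-t))` for `t < 1` and `0` for `t ≥ 1`. -/
noncomputable def h (t : ℝ) : ℝ := Real.exp 1 * expNegInvGlue (1 - t)

theorem h_contDiff : ContDiff ℝ ∞ h :=
  contDiff_const.mul (expNegInvGlue.contDiff.comp (contDiff_const.sub contDiff_id))

theorem h_zero : h 0 = 1 := by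
  simp [h, expNegInvGlue, ← Real.exp_add]

theorem h_of_lt {t : ℝ} (ht : t < 1) : h t = Real.exp (1 - 1 / (1 - t)) := by
  have h1 : ¬ (1 - t ≤ 0) := by linarith
  simp only [h, expNegInvGlue, h1, if_false]
  rw [← Real.exp_add]
  congr 1
  rw [one_div]
  ring

theorem h_of_ge {t : ℝ} (ht : 1 ≤ t) : h t = 0 := by
  have h1 : 1 - t ≤ 0 := by linarith
  simp [h, expNegInvGlue, h1]

theorem h_pow_of_lt {t : ℝ} (ht : t < 1) (m : ℕ) :
    h t ^ m = Real.exp (m - m * (1 - t)⁻¹) := by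
  rw [h_of_lt ht, ← Real.exp_nat_mul]
  congr 1
  rw [one_div]
  ring

/-- `D m k` is the `k`-th derivative of `h ^ m`. -/
noncomputable def D (m k : ℕ) : ℝ → ℝ := iteratedDeriv k (fun t => h t ^ m)

theorem hpow_contDiff (m : ℕ) : ContDiff ℝ ∞ (fun t => h t ^ m) := h_contDiff.pow m

theorem D_zero (m : ℕ) (t : ℝ) : D m 0 t = h t ^ m := by simp [D]

theorem D_hasDerivAt (m k : ℕ) (t : ℝ) : HasDerivAt (D m k) (D m (k + 1) t) t := by
  have h1 : Differentiable ℝ (D m k) :=
    (hpow_contDiff m).differentiable_iteratedDeriv k (by exact_mod_cast ENat.natCast_lt_top k)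
  have h2 := (h1 t).hasDerivAt
  have h3 : deriv (D m k) t = D m (k + 1) t := by simp only [D, iteratedDeriv_succ]
  rwa [h3] at h2

theorem D_of_ge (m : ℕ) (k : ℕ) {t : ℝ} (ht : 1 ≤ t) : D (m + 1) k t = 0 := by
  induction k generalizing t with
  | zero => rw [D_zero, h_of_ge ht]; simp
  | succ k ih =>
    have h1 := (D_hasDerivAt (m + 1) k t).hasDerivWithinAt (s := Ici t)
    have h2 : HasDerivWithinAt (D (m + 1) k) 0 (Ici t) t := by
      refine (hasDerivWithinAt_const t (Ici t) (0 : ℝ)).congr_of_mem (fun x hx => ?_) (by simp)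
      exact ih (ht.trans hx)
    exact (uniqueDiffWithinAt_Ici t).eq_deriv _ h1 h2

/-- The rational functions `R_k(s)` with `(d/ds)^k exp(-m/s) = R_k(s) exp(-m/s)`. -/
noncomputable def R (m s : ℝ) : ℕ → ℝ
  | 0 => 1
  | 1 => m * (s * s)⁻¹
  | (k + 2) => ((m - 2 * ((k : ℝ) + 1) * s) * R m s (k + 1) - ((k : ℝ) + 1) * k * R m s k)
      * (s * s)⁻¹

theorem R_zero (m s : ℝ) : R m s 0 = 1 := rfl

theorem R_one (m s : ℝ) : R m s 1 = m * (s * s)⁻¹ := rfl

theorem R_add_two (m s : ℝ) (k : ℕ) : R m s (k + 2) =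
    ((m - 2 * ((k : ℝ) + 1) * s) * R m s (k + 1) - ((k : ℝ) + 1) * k * R m s k)
      * (s * s)⁻¹ := rfl

theorem R_hasDerivAt (m s : ℝ) (hs : s ≠ 0) (k : ℕ) :
    HasDerivAt (fun s => R m s k) (R m s (k + 1) - m * (s * s)⁻¹ * R m s k) s ∧
    HasDerivAt (fun s => R m s (k + 1)) (R m s (k + 2) - m * (s * s)⁻¹ * R m s (k + 1)) s := by
  have hss : s * s ≠ 0 := mul_ne_zero hs hs
  have hinv : HasDerivAt (fun s : ℝ => (s * s)⁻¹) (-(1 * s + s * 1) / (s * s) ^ 2) s :=
    ((hasDerivAt_id s).mul (hasDerivAt_id s)).inv hss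
  induction k with
  | zero =>
    constructor
    · have e : R m s (0 + 1) - m * (s * s)⁻¹ * R m s 0 = 0 := by
        rw [zero_add, R_one, R_zero]; ring
      rw [e]
      exact hasDerivAt_const s (1 : ℝ)
    · have e : R m s (0 + 2) - m * (s * s)⁻¹ * R m s (0 + 1) =
          m * (-(1 * s + s * 1) / (s * s) ^ 2) := by
        rw [R_add_two, zero_add, R_one, R_zero]
        push_cast
        field_simp
        ring
      rw [e]
      exact hinv.const_mul m
  | succ k ih =>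
    refine ⟨ih.2, ?_⟩
    have h1 : HasDerivAt (fun s : ℝ => m - 2 * ((k : ℝ) + 1) * s) (-(2 * ((k : ℝ) + 1))) s := by
      have := ((hasDerivAt_id s).const_mul (2 * ((k : ℝ) + 1))).const_sub m
      simpa using this
    have h2 := ((h1.mul ih.2).sub (ih.1.const_mul (((k : ℝ) + 1) * k))).mul hinv
    have h3 : (fun s => R m s (k + 1 + 1)) = fun s =>
        ((m - 2 * ((k : ℝ) + 1) * s) * R m s (k + 1) - ((k : ℝ) + 1) * k * R m s k)
          * (s * s)⁻¹ := by
      funext s; rw [R_add_two]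
    rw [h3]
    refine HasDerivAt.congr_deriv h2 ?_
    have e3 := R_add_two m s (k + 1)
    have e4 : R m s (k + 1 + 1) = R m s (k + 2) := rfl
    rw [e3, e4, R_add_two m s k]
    simp only [Pi.mul_apply, Pi.sub_apply]
    push_cast
    field_simp
    ring

theorem D_of_lt (m k : ℕ) {t : ℝ} (ht : t < 1) :
    D m k t = (-1) ^ k * R m (1 - t) k * Real.exp (m - m * (1 - t)⁻¹) := by
  induction k generalizing t with
  | zero => rw [D_zero, h_pow_of_lt ht, R_zero]; ring
  | succ k ih =>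
    have hs : (1 - t) ≠ 0 := by linarith
    have h1 : HasDerivAt (fun x : ℝ => 1 - x) (-1) t := by
      simpa using (hasDerivAt_id t).const_sub 1
    have h2 : HasDerivAt (fun x : ℝ => R m (1 - x) k)
        ((R m (1 - t) (k + 1) - m * ((1 - t) * (1 - t))⁻¹ * R m (1 - t) k) * (-1)) t :=
      HasDerivAt.comp t (h₂ := fun s => R m s k) (R_hasDerivAt m (1 - t) hs k).1 h1
    have h3 : HasDerivAt (fun x : ℝ => (1 - x)⁻¹) (-(-1) / (1 - t) ^ 2) t := h1.inv hs
    have h4 : HasDerivAt (fun x : ℝ => (m : ℝ) - m * (1 - x)⁻¹) (-(m * (-(-1) / (1 - t) ^ 2))) t :=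
      (h3.const_mul (m : ℝ)).const_sub (m : ℝ)
    have h5 := h4.exp
    have h6 := (h2.const_mul ((-1 : ℝ) ^ k)).mul h5
    have h7 : HasDerivAt (D m k) ((-1) ^ (k + 1) * R m (1 - t) (k + 1) *
        Real.exp (m - m * (1 - t)⁻¹)) t := by
      have h8 : (D m k) =ᶠ[𝓝 t] ((fun x => (-1) ^ k * R m (1 - x) k) *
          fun x => Real.exp (m - m * (1 - x)⁻¹)) := by
        filter_upwards [Iio_mem_nhds ht] with x hx
        exact ih hx
      refine (HasDerivAt.congr_deriv h6 ?_).congr_of_eventuallyEq h8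
      rw [pow_succ]
      field_simp
      ring
    exact (D_hasDerivAt m k t).unique h7

/-! ### Computability of the derivatives -/

/-- the pair `(R_k, R_{k+1})` on codes -/
def qRpair (z : Q3 × Q3) (k : ℕ) : Q3 × Q3 :=
  Nat.rec (motive := fun _ => Q3 × Q3)
    ((1, 0, 0), qmul z.1 (qinv (qmul z.2 z.2)))
    (fun k r => (r.2, qmul
      (qadd (qmul (qadd z.1 (qneg (qmul (qnat (2 * (k + 1))) z.2))) r.2)
        (qneg (qmul (qnat ((k + 1) * k)) r.1)))
      (qinv (qmul z.2 z.2)))) k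

theorem rv_qRpair (z : Q3 × Q3) (k : ℕ) :
    rv (qRpair z k).1 = R (rv z.1) (rv z.2) k ∧ rv (qRpair z k).2 = R (rv z.1) (rv z.2) (k + 1) := by
  induction k with
  | zero =>
    have h : qRpair z 0 = ((1, 0, 0), qmul z.1 (qinv (qmul z.2 z.2))) := rfl
    rw [h]
    constructor
    · simp only; rw [rv_def, R_zero]; simp
    · simp only; rw [rv_qmul, rv_qinv, rv_qmul, zero_add, R_one]
  | succ k ih =>
    have h : qRpair z (k + 1) = ((qRpair z k).2, qmul
      (qadd (qmul (qadd z.1 (qneg (qmul (qnat (2 * (k + 1))) z.2))) (qRpair z k).2)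
        (qneg (qmul (qnat ((k + 1) * k)) (qRpair z k).1)))
      (qinv (qmul z.2 z.2))) := rfl
    rw [h]
    refine ⟨ih.2, ?_⟩
    simp only
    rw [rv_qmul, rv_qinv, rv_qmul, rv_qadd, rv_qmul, rv_qadd, rv_qneg, rv_qmul, rv_qneg, rv_qmul,
      rv_qnat, rv_qnat, ih.1, ih.2]
    have e4 : R (rv z.1) (rv z.2) (k + 1 + 1) = R (rv z.1) (rv z.2) (k + 2) := rfl
    rw [e4, R_add_two]
    push_cast
    ring

theorem primrec_qRpair : Primrec₂ qRpair := by
  have hss : Primrec (fun z : Q3 × Q3 => qinv (qmul z.2 z.2)) :=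
    primrec_qinv.comp (primrec_qmul.comp Primrec.snd Primrec.snd)
  refine Primrec.nat_rec (f := fun z : Q3 × Q3 => (((1, 0, 0) : Q3), qmul z.1 (qinv (qmul z.2 z.2))))
    (g := fun (z : Q3 × Q3) (p : ℕ × (Q3 × Q3)) => (p.2.2, qmul
      (qadd (qmul (qadd z.1 (qneg (qmul (qnat (2 * (p.1 + 1))) z.2))) p.2.2)
        (qneg (qmul (qnat ((p.1 + 1) * p.1)) p.2.1)))
      (qinv (qmul z.2 z.2)))) ?_ ?_
  · exact Primrec.pair (Primrec.const _) (primrec_qmul.comp Primrec.fst hss)
  · have z1 : Primrec (fun w : (Q3 × Q3) × (ℕ × (Q3 × Q3)) => w.1.1) :=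
      Primrec.fst.comp Primrec.fst
    have z2 : Primrec (fun w : (Q3 × Q3) × (ℕ × (Q3 × Q3)) => w.1.2) :=
      Primrec.snd.comp Primrec.fst
    have k0 : Primrec (fun w : (Q3 × Q3) × (ℕ × (Q3 × Q3)) => w.2.1) :=
      Primrec.fst.comp Primrec.snd
    have k1 : Primrec (fun w : (Q3 × Q3) × (ℕ × (Q3 × Q3)) => w.2.1 + 1) := Primrec.succ.comp k0
    have a : Primrec (fun w : (Q3 × Q3) × (ℕ × (Q3 × Q3)) => w.2.2.1) :=
      Primrec.fst.comp (Primrec.snd.comp Primrec.snd)
    have b : Primrec (fun w : (Q3 × Q3) × (ℕ × (Q3 × Q3)) => w.2.2.2) :=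
      Primrec.snd.comp (Primrec.snd.comp Primrec.snd)
    have t1 : Primrec (fun w : (Q3 × Q3) × (ℕ × (Q3 × Q3)) =>
        qmul (qadd w.1.1 (qneg (qmul (qnat (2 * (w.2.1 + 1))) w.1.2))) w.2.2.2) :=
      primrec_qmul.comp (primrec_qadd.comp z1 (primrec_qneg.comp (primrec_qmul.comp
        (primrec_qnat.comp (Primrec.nat_double.comp k1)) z2))) b
    have t2 : Primrec (fun w : (Q3 × Q3) × (ℕ × (Q3 × Q3)) =>
        qneg (qmul (qnat ((w.2.1 + 1) * w.2.1)) w.2.2.1)) :=
      primrec_qneg.comp (primrec_qmul.comp (primrec_qnat.comp (Primrec.nat_mul.comp k1 k0)) a)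
    exact Primrec.pair b (primrec_qmul.comp (primrec_qadd.comp t1 t2) (hss.comp Primrec.fst))

theorem rv_lt_one_iff (q : Q3) : rv q < 1 ↔ q.1 < q.2.1 + (q.2.2 + 1) := by
  rw [rv_def, div_lt_one (by positivity)]
  constructor
  · intro h
    have : (q.1 : ℝ) < ((q.2.1 + (q.2.2 + 1) : ℕ) : ℝ) := by push_cast; linarith
    exact_mod_cast this
  · intro h
    have : (q.1 : ℝ) < ((q.2.1 + (q.2.2 + 1) : ℕ) : ℝ) := by exact_mod_cast h
    push_cast at this
    linarith

variable {α : Type*} [Primcodable α]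

theorem CR_D (m : ℕ) {k : α → ℕ} (hk : Computable k) {q : α → Q3} (hq : Computable q) :
    CR fun a => D (m + 1) (k a) (rv (q a)) := by
  -- the code of `1 - q`
  have hs : Computable fun a => qadd (1, 0, 0) (qneg (q a)) :=
    primrec_qadd.to_comp.comp (Computable.const _) (primrec_qneg.to_comp.comp hq)
  have rs : ∀ a, rv (qadd (1, 0, 0) (qneg (q a))) = 1 - rv (q a) := fun a => by
    rw [rv_qadd, rv_qneg, rv_def (1, 0, 0)]; simp; ring
  have hE : CR fun a => Real.exp (rv (qadd (qnat (m + 1)) (qneg (qmul (qnat (m + 1))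
      (qinv (qadd (1, 0, 0) (qneg (q a)))))))) :=
    CR.exp_rat (primrec_qadd.to_comp.comp (Computable.const _) (primrec_qneg.to_comp.comp
      (primrec_qmul.to_comp.comp (Computable.const _) (primrec_qinv.to_comp.comp hs))))
  have hR : CR fun a => rv (qmul (qpow (0, 1, 0) (k a))
      (qRpair (qnat (m + 1), qadd (1, 0, 0) (qneg (q a))) (k a)).1) :=
    CR.rat (primrec_qmul.to_comp.comp (primrec_qpow.to_comp.comp (Computable.const _) hk)
      (Computable.fst.comp (primrec_qRpair.to_comp.comp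
        (Computable.pair (Computable.const _) hs) hk)))
  have hc : Computable fun a => decide ((q a).1 < (q a).2.1 + ((q a).2.2 + 1)) := by
    have h1 : Primrec fun q : Q3 => decide (q.1 < q.2.1 + (q.2.2 + 1)) :=
      (Primrec.nat_lt.comp Primrec.fst (Primrec.nat_add.comp (Primrec.fst.comp Primrec.snd)
        (Primrec.succ.comp (Primrec.snd.comp Primrec.snd)))).decide
    exact h1.to_comp.comp hq
  refine (CR.ite hc (hR.mul hE) CR.zero).of_eq fun a => ?_
  split_ifs with h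
  · have h1 : rv (q a) < 1 := (rv_lt_one_iff _).2 h
    rw [D_of_lt _ _ h1, rv_qmul, rv_qpow, (rv_qRpair _ _).1, rs, rv_qadd, rv_qneg, rv_qmul,
      rv_qinv, rs, rv_qnat]
    have h2 : rv (0, 1, 0) = -1 := by rw [rv_def]; norm_num
    rw [h2]
    push_cast
    ring_nf
  · have h1 : 1 ≤ rv (q a) := by
      rw [← not_lt, rv_lt_one_iff]; exact h
    rw [D_of_ge _ _ h1]

end Vale.Agent.P113
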