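import Vale.Agent.P113.Force

/-!
# P113: the solution, its smoothness and its trajectories
-/

open Set Function Filter Topology
open scoped ContDiff Real

namespace Vale.Agent.P113

theorem D_contDiff (m k : ℕ) : ContDiff ℝ ∞ (D m k) := by
  rw [D, iteratedDeriv_eq_iterate]
  exact ContDiff.iterate_deriv k (hpow_contDiff m)

theorem cosT_smooth (c : ℕ) : ContDiff ℝ ∞ (fun z : ℝ × V3 => cosT c (proj z.2 1)) := by
  have e : (fun z : ℝ × V3 => cosT c (proj z.2 1)) =
      fun z : ℝ × V3 => Real.cos (2 * π * z.2 1 + c * (π / 2)) := by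
    funext z; exact cosT_coe c (z.2 1)
  rw [e]
  fun_prop

theorem comp_smooth {A : ℝ → ℝ} (hA : ContDiff ℝ ∞ A) :
    ContDiff ℝ ∞ (fun z : ℝ × V3 => A z.1) := hA.comp contDiff_fst

theorem GF_smooth {A B C : ℝ → ℝ} (hA : ContDiff ℝ ∞ A) (hB : ContDiff ℝ ∞ B)
    (hC : ContDiff ℝ ∞ C) (c : ℕ) : ContDiff ℝ ∞ (fun z : ℝ × V3 => GF A B C c z.1 (proj z.2)) :=
  ((comp_smooth hA).add ((comp_smooth hB).mul (cosT_smooth c))).add
    ((comp_smooth hC).mul (cosT_smooth (c + 1)))

theorem oneD_contDiff (k : ℕ) : ContDiff ℝ ∞ (oneD k) := contDiff_const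

theorem frc_smooth (ν r : ℝ) : SmoothField (frc ν r) := by
  refine ContDiff.contDiffOn ?_
  rw [contDiff_pi]
  intro i
  fin_cases i
  · exact GF_smooth (D_contDiff 1 1).neg
      ((D_contDiff 1 1).sub (contDiff_const.mul ((oneD_contDiff 0).sub (D_contDiff 1 0))))
      (contDiff_const.mul (((D_contDiff 1 0).sub (contDiff_const.mul (D_contDiff 2 0))).add
        (D_contDiff 3 0))) 0
  · exact GF_smooth (contDiff_const.mul ((D_contDiff 1 1).sub (D_contDiff 2 1)))
      contDiff_const contDiff_const 0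
  · exact contDiff_const

theorem vel_smooth (r : ℝ) : SmoothField (vel r) := by
  refine ContDiff.contDiffOn ?_
  rw [contDiff_pi]
  intro i
  fin_cases i
  · exact (contDiff_const.sub (comp_smooth h_contDiff)).mul (contDiff_const.sub (cosT_smooth 0))
  · exact contDiff_const.mul ((comp_smooth h_contDiff).sub ((comp_smooth h_contDiff).pow 2))
  · exact contDiff_const

theorem D_one (k : ℕ) (t : ℝ) (hk : k = 0) : D 1 k t = h t := by
  subst hk; rw [D_zero]; simp

theorem h_hasDerivAt (t : ℝ) : HasDerivAt h (D 1 1 t) t := by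
  have := D_hasDerivAt 1 0 t
  have e : D 1 0 = h := by funext t; rw [D_zero]; simp
  rwa [e] at this

theorem h2_hasDerivAt (t : ℝ) : HasDerivAt (fun t => h t ^ 2) (D 2 1 t) t := by
  have := D_hasDerivAt 2 0 t
  have e : D 2 0 = fun t => h t ^ 2 := by funext t; rw [D_zero]
  rwa [e] at this

theorem vel_isSolution (ν r T : ℝ) :
    IsClassicalSolution ν (frc ν r) T (vel r) (fun _ _ => 0) := by
  have ch : Continuous h := h_contDiff.continuous
  have cD : ∀ m k, Continuous (D m k) := fun m k => (D_contDiff m k).continuous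
  have cc : ∀ c, Continuous (fun z : ℝ × T3 => cosT c (z.2 1)) := fun c =>
    (cosT_continuous c).comp ((continuous_apply 1).comp continuous_snd)
  have ch' : Continuous (fun z : ℝ × T3 => h z.1) := ch.comp continuous_fst
  have cD' : ∀ m k, Continuous (fun z : ℝ × T3 => D m k z.1) := fun m k =>
    (cD m k).comp continuous_fst
  refine ⟨fun t x => ![- D 1 1 t * (1 - cosT 0 (x 1)), r * (D 1 1 t - D 2 1 t), 0],
    fun j t x => if j = 1 then ![- (1 - h t) * (2 * π * cosT 1 (x 1)), 0, 0] else 0,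
    fun j k t x => if j = 1 ∧ k = 1 then ![- (1 - h t) * (2 * π * (2 * π * cosT 2 (x 1))), 0, 0]
      else 0,
    fun j t x => 0, ?_, ?_, ?_, ?_, ?_, ?_, ?_, ?_, ?_, ?_, ?_, ?_, ?_, ?_⟩
  · intro t _ x
    refine HasDerivAt.hasDerivWithinAt ?_
    rw [hasDerivAt_pi]
    intro i
    fin_cases i
    · exact ((h_hasDerivAt t).const_sub 1).mul_const _
    · exact ((h_hasDerivAt t).sub (h2_hasDerivAt t)).const_mul r
    · exact hasDerivAt_const _ _
  · intro t _ x j
    rw [hasDerivAt_pi]
    intro i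
    by_cases hj : j = 1
    · subst hj
      fin_cases i
      · have h1 := ((cosT_hasDerivAt 0 (x 1) 0).const_sub 1).const_mul (1 - h t)
        simp only [vel, shift_same]
        refine h1.congr_deriv ?_
        simp
        ring
      · simpa [vel] using hasDerivAt_const (0 : ℝ) (r * (h t - h t ^ 2))
      · simpa [vel] using hasDerivAt_const (0 : ℝ) (0 : ℝ)
    · simp only [vel, shift_ne x (Ne.symm hj), if_neg hj]
      exact hasDerivAt_const _ _
  · intro t _ x j k
    rw [hasDerivAt_pi]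
    intro i
    by_cases hj : j = 1
    · subst hj
      by_cases hk : k = 1
      · subst hk
        simp only [shift_same, and_self, if_true]
        fin_cases i
        · have h1 := ((cosT_hasDerivAt 1 (x 1) 0).const_mul (2 * π)).const_mul (-(1 - h t))
          refine h1.congr_deriv ?_
          simp
        · exact hasDerivAt_const _ _
        · exact hasDerivAt_const _ _
      · simp only [shift_ne x (Ne.symm hk), hk, and_false, if_true, if_false]
        exact hasDerivAt_const _ _
    · simp only [hj, false_and, if_false]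
      exact hasDerivAt_const _ _
  · intro t _ x j
    exact hasDerivAt_const _ _
  · refine Continuous.continuousOn ?_
    refine continuous_pi fun i => ?_
    fin_cases i
    · exact (continuous_const.sub ch').mul (continuous_const.sub (cc 0))
    · exact continuous_const.mul (ch'.sub (ch'.pow 2))
    · exact continuous_const
  · refine Continuous.continuousOn ?_
    refine continuous_pi fun i => ?_
    fin_cases i
    · exact (cD' 1 1).neg.mul (continuous_const.sub (cc 0))
    · exact continuous_const.mul ((cD' 1 1).sub (cD' 2 1))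
    · exact continuous_const
  · intro j
    refine Continuous.continuousOn ?_
    by_cases hj : j = 1
    · subst hj
      refine continuous_pi fun i => ?_
      fin_cases i
      · exact (continuous_const.sub ch').neg.mul (continuous_const.mul (cc 1))
      · exact continuous_const
      · exact continuous_const
    · simp only [hj, if_false]
      exact continuous_const
  · intro j k
    refine Continuous.continuousOn ?_
    by_cases hj : j = 1 ∧ k = 1
    · simp only [hj, and_self, if_true]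
      refine continuous_pi fun i => ?_
      fin_cases i
      · exact (continuous_const.sub ch').neg.mul
          (continuous_const.mul (continuous_const.mul (cc 2)))
      · exact continuous_const
      · exact continuous_const
    · simp only [hj, if_false]
      exact continuous_const
  · exact continuous_const.continuousOn
  · intro j
    exact continuous_const.continuousOn
  · intro t _ x i
    rw [Fin.sum_univ_three, Fin.sum_univ_three]
    fin_cases i
    · simp [vel, frc, GF, cA, cB, cC, oneD, D_zero, cosT_add_two]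
      ring
    · simp [vel, frc, GF, cE]
    · simp [vel, frc]
  · intro t _ x
    rw [Fin.sum_univ_three]
    simp
  · intro x
    simp [vel, h_zero]
  · intro t _
    simp

/-! ### Trajectories -/

/-- the set that detects halting: the first coordinate is in `(1/4, 3/4)` -/
def detector : Set T3 := {x | cosT 0 (x 0) < 0}

theorem detector_open : IsOpen detector :=
  isOpen_lt ((cosT_continuous 0).comp (continuous_apply 0)) continuous_const

theorem h_nonneg (t : ℝ) : 0 ≤ h t := mul_nonneg (Real.exp_pos 1).le (expNegInvGlue.nonneg _)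

theorem h_pos {t : ℝ} (ht : t < 1) : 0 < h t := by
  rw [h_of_lt ht]; exact Real.exp_pos _

theorem h_lt_one {t : ℝ} (ht : 0 < t) : h t < 1 := by
  rcases lt_or_ge t 1 with h1 | h1
  · rw [h_of_lt h1, Real.exp_lt_one_iff]
    have : 1 < 1 / (1 - t) := by
      rw [lt_div_iff₀ (by linarith)]; linarith
    linarith
  · rw [h_of_ge h1]; exact one_pos

theorem h_le_one {t : ℝ} (ht : 0 ≤ t) : h t ≤ 1 := by
  rcases ht.eq_or_lt with h1 | h1
  · rw [← h1, h_zero]
  · exact (h_lt_one h1).le

theorem trajectory_exists (r : ℝ) : ∃ X, IsTrajectory (vel r) 0 X := by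
  have ch : Continuous h := h_contDiff.continuous
  have c1 : Continuous fun t => r * (h t - h t ^ 2) := by fun_prop
  set Y1 : ℝ → ℝ := fun t => ∫ s in (0 : ℝ)..t, r * (h s - h s ^ 2) with hY1
  have d1 : ∀ t, HasDerivAt Y1 (r * (h t - h t ^ 2)) t := fun t =>
    (c1.integral_hasStrictDerivAt 0 t).hasDerivAt
  have cY1 : Continuous Y1 := continuous_iff_continuousAt.2 fun t => (d1 t).continuousAt
  have c0 : Continuous fun t => (1 - h t) * (1 - Real.cos (2 * π * Y1 t + (0 : ℕ) * (π / 2))) := by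
    fun_prop
  set Y0 : ℝ → ℝ := fun t =>
    ∫ s in (0 : ℝ)..t, (1 - h s) * (1 - Real.cos (2 * π * Y1 s + (0 : ℕ) * (π / 2))) with hY0
  have d0 : ∀ t, HasDerivAt Y0 ((1 - h t) * (1 - Real.cos (2 * π * Y1 t + (0 : ℕ) * (π / 2)))) t :=
    fun t => (c0.integral_hasStrictDerivAt 0 t).hasDerivAt
  refine ⟨fun t => proj ![Y0 t, Y1 t, 0], ?_, fun t => ![Y0 t, Y1 t, 0], fun t _ => rfl,
    fun t _ => ?_⟩
  · funext i
    fin_cases i <;> simp [proj, hY0, hY1]
  · refine HasDerivAt.hasDerivWithinAt ?_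
    rw [hasDerivAt_pi]
    intro i
    fin_cases i
    · refine (d0 t).congr_deriv ?_
      have : cosT 0 ((Y1 t : ℝ) : UnitAddCircle) =
        Real.cos (2 * π * Y1 t + (0 : ℕ) * (π / 2)) := cosT_coe _ _
      simp [vel, proj, this]
    · exact d1 t
    · exact hasDerivAt_const _ _

theorem int_of_coe_zero {y : ℝ} (hy : (y : UnitAddCircle) = 0) : ∃ n : ℤ, y = n := by
  rw [AddCircle.coe_eq_zero_iff] at hy
  obtain ⟨n, hn⟩ := hy
  exact ⟨n, by simpa using hn.symm⟩

/-- The equations satisfied by the coordinates of a lift of a trajectory. -/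
theorem trajectory_coords {r : ℝ} {X : ℝ → T3} (hX : IsTrajectory (vel r) 0 X) :
    ∃ Y0 Y1 : ℝ → ℝ, (∃ n : ℤ, Y0 0 = n) ∧ (∃ n : ℤ, Y1 0 = n) ∧
      (∀ t, 0 ≤ t → X t 0 = (Y0 t : UnitAddCircle)) ∧
      (∀ t, 0 ≤ t → HasDerivWithinAt Y0 ((1 - h t) * (1 - Real.cos (2 * π * Y1 t))) (Ici 0) t) ∧
      (∀ t, 0 ≤ t → HasDerivWithinAt Y1 (r * (h t - h t ^ 2)) (Ici 0) t) := by
  obtain ⟨h0, Y, hY, hd⟩ := hX
  have e0 : proj (Y 0) = 0 := by rw [← hY 0 le_rfl, h0]
  refine ⟨fun t => Y t 0, fun t => Y t 1, ?_, ?_, ?_, ?_, ?_⟩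
  · exact int_of_coe_zero (congrFun e0 0)
  · exact int_of_coe_zero (congrFun e0 1)
  · intro t ht
    rw [hY t ht]; rfl
  · intro t ht
    have h1 := (hasDerivWithinAt_pi.1 (hd t ht)) 0
    refine h1.congr_deriv ?_
    rw [hY t ht]
    have : cosT 0 ((Y t 1 : ℝ) : UnitAddCircle) =
      Real.cos (2 * π * Y t 1 + (0 : ℕ) * (π / 2)) := cosT_coe _ _
    simp [vel, proj, this]
  · intro t ht
    have h1 := (hasDerivWithinAt_pi.1 (hd t ht)) 1
    refine h1.congr_deriv ?_
    simp [vel]

/-- A function with zero right derivative on `[a, ∞)` is constant there. -/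
theorem const_of_zero {f : ℝ → ℝ} {a : ℝ} (ha : 0 ≤ a)
    (hf : ∀ t, 0 ≤ t → ∃ d, HasDerivWithinAt f d (Ici 0) t)
    (hd : ∀ t, a ≤ t → HasDerivWithinAt f 0 (Ici 0) t) {t : ℝ} (ht : a ≤ t) : f t = f a := by
  refine constant_of_has_deriv_right_zero (a := a) (b := t) ?_ ?_ t (right_mem_Icc.2 ht)
  · intro s hs
    obtain ⟨d, h1⟩ := hf s (ha.trans hs.1)
    exact h1.continuousWithinAt.mono fun x hx => ha.trans hx.1
  · intro s hs
    exact (hd s hs.1).mono fun x hx => (ha.trans hs.1).trans hx

theorem detect_zero {X : ℝ → T3} (hX : IsTrajectory (vel 0) 0 X) {t : ℝ} (ht : 0 ≤ t) :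
    X t ∉ detector := by
  obtain ⟨Y0, Y1, ⟨n, hn⟩, ⟨m, hm⟩, hX0, h0, h1⟩ := trajectory_coords hX
  have e1 : ∀ s, 0 ≤ s → Y1 s = m := fun s hs => by
    rw [← hm]
    exact const_of_zero le_rfl (fun t ht => ⟨_, h1 t ht⟩) (fun t ht => by simpa using h1 t ht) hs
  have e0 : Y0 t = n := by
    rw [← hn]
    refine const_of_zero le_rfl (fun t ht => ⟨_, h0 t ht⟩) (fun s hs => ?_) ht
    have h2 := h0 s hs
    have h3 : Real.cos (2 * π * Y1 s) = 1 := by
      rw [e1 s hs, mul_comm]
      exact Real.cos_int_mul_two_pi m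
    rw [h3] at h2
    simpa using h2
  simp only [detector, mem_ofPred_eq, not_lt]
  rw [hX0 t ht, e0, cosT_coe]
  have : Real.cos (2 * π * (n : ℝ) + (0 : ℕ) * (π / 2)) = 1 := by
    rw [Nat.cast_zero, zero_mul, add_zero, mul_comm]
    exact Real.cos_int_mul_two_pi n
  rw [this]
  exact zero_le_one

theorem hasDerivAt_of_within {f : ℝ → ℝ} {d t : ℝ} (hf : HasDerivWithinAt f d (Ici 0) t)
    (ht : 0 < t) : HasDerivAt f d t := hf.hasDerivAt (Ici_mem_nhds ht)

theorem detect_pos {r : ℝ} (hr : 0 < r) (hr1 : r ≤ 1) {X : ℝ → T3}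
    (hX : IsTrajectory (vel r) 0 X) : ∃ t, 0 ≤ t ∧ X t ∈ detector := by
  obtain ⟨Y0, Y1, ⟨n, hn⟩, ⟨m, hm⟩, hX0, h0, h1⟩ := trajectory_coords hX
  have c0 : ContinuousOn Y0 (Ici 0) := fun s hs => (h0 s hs).continuousWithinAt
  have c1 : ContinuousOn Y1 (Ici 0) := fun s hs => (h1 s hs).continuousWithinAt
  -- the shift `ρ = Y1 1 - m` lies in `(0, 1)`
  have hρ0 : Y1 0 < Y1 1 := by
    refine strictMonoOn_of_deriv_pos (convex_Icc 0 1) (c1.mono fun x hx => hx.1) ?_
      (left_mem_Icc.2 zero_le_one) (right_mem_Icc.2 zero_le_one) one_pos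
    intro s hs
    rw [interior_Icc] at hs
    rw [(hasDerivAt_of_within (h1 s hs.1.le) hs.1).deriv]
    have a1 := h_pos hs.2
    have a2 := h_lt_one hs.1
    have : 0 < h s - h s ^ 2 := by nlinarith
    positivity
  have hρ1 : Y1 1 - Y1 0 ≤ 1 / 4 * (1 - 0) := by
    refine Convex.image_sub_le_mul_sub_of_deriv_le (convex_Icc 0 1) (c1.mono fun x hx => hx.1)
      ?_ ?_ 0 (left_mem_Icc.2 zero_le_one) 1 (right_mem_Icc.2 zero_le_one) zero_le_one
    · intro s hs
      rw [interior_Icc] at hs
      exact (hasDerivAt_of_within (h1 s hs.1.le) hs.1).differentiableAt.differentiableWithinAt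
    · intro s hs
      rw [interior_Icc] at hs
      rw [(hasDerivAt_of_within (h1 s hs.1.le) hs.1).deriv]
      have a1 := h_pos hs.2
      have a2 := h_lt_one hs.1
      have a3 : 0 < h s - h s ^ 2 := by nlinarith
      have a4 : h s - h s ^ 2 ≤ 1 / 4 := by nlinarith [sq_nonneg (h s - 1 / 2)]
      nlinarith
  have e1 : ∀ t, 1 ≤ t → Y1 t = Y1 1 := fun t ht => by
    refine const_of_zero zero_le_one (fun t ht => ⟨_, h1 t ht⟩) (fun s hs => ?_) ht
    have h2 := h1 s (zero_le_one.trans hs)
    rw [h_of_ge hs] at h2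
    simpa using h2
  set κ : ℝ := 1 - Real.cos (2 * π * Y1 1) with hκ
  have hκ0 : 0 < κ := by
    have h2 : Real.cos (2 * π * Y1 1) ≠ 1 := by
      intro hc
      rw [Real.cos_eq_one_iff] at hc
      obtain ⟨j, hj⟩ := hc
      have h3 : (j : ℝ) = Y1 1 := by
        have : (2 * π) ≠ 0 := by positivity
        have h4 : (j : ℝ) * (2 * π) = Y1 1 * (2 * π) := by rw [hj]; ring
        exact mul_right_cancel₀ this h4
      rw [← h3, hm] at hρ0 hρ1
      have h5 : m < j := by exact_mod_cast hρ0
      have h6 : (m : ℝ) + 1 ≤ j := by exact_mod_cast h5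
      linarith
    have h3 := Real.cos_le_one (2 * π * Y1 1)
    have h4 : Real.cos (2 * π * Y1 1) < 1 := lt_of_le_of_ne h3 h2
    linarith
  -- `Y0` is nondecreasing on `[0, 1]`
  have hm0 : Y0 0 ≤ Y0 1 := by
    refine monotoneOn_of_deriv_nonneg (convex_Icc 0 1) (c0.mono fun x hx => hx.1) ?_ ?_
      (left_mem_Icc.2 zero_le_one) (right_mem_Icc.2 zero_le_one) zero_le_one
    · intro s hs
      rw [interior_Icc] at hs
      exact (hasDerivAt_of_within (h0 s hs.1.le) hs.1).differentiableAt.differentiableWithinAt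
    · intro s hs
      rw [interior_Icc] at hs
      rw [(hasDerivAt_of_within (h0 s hs.1.le) hs.1).deriv]
      have a2 := h_lt_one hs.1
      have a3 := Real.cos_le_one (2 * π * Y1 s)
      exact mul_nonneg (by linarith) (by linarith)
  -- growth on `[1, T]`
  set T : ℝ := 1 + 1 / κ with hT
  have hT1 : 1 ≤ T := by
    have : 0 < 1 / κ := by positivity
    linarith
  have hg : κ * (T - 1) ≤ Y0 T - Y0 1 := by
    refine Convex.mul_sub_le_image_sub_of_le_deriv (convex_Icc 1 T)
      (c0.mono fun x hx => zero_le_one.trans hx.1) ?_ ?_ 1 (left_mem_Icc.2 hT1) T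
      (right_mem_Icc.2 hT1) hT1
    · intro s hs
      rw [interior_Icc] at hs
      have hs0 : 0 < s := one_pos.trans hs.1
      exact (hasDerivAt_of_within (h0 s hs0.le) hs0).differentiableAt.differentiableWithinAt
    · intro s hs
      rw [interior_Icc] at hs
      have hs0 : 0 < s := one_pos.trans hs.1
      rw [(hasDerivAt_of_within (h0 s hs0.le) hs0).deriv, h_of_ge hs.1.le, e1 s hs.1.le]
      linarith
  have hg2 : Y0 0 + 1 ≤ Y0 T := by
    have : κ * (T - 1) = 1 := by rw [hT]; field_simp; ring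
    linarith
  -- intermediate value theorem
  have hT0 : 0 ≤ T := zero_le_one.trans hT1
  obtain ⟨t, ht, hYt⟩ : Y0 0 + 1 / 2 ∈ Y0 '' Icc 0 T :=
    intermediate_value_Icc hT0 (c0.mono fun x hx => hx.1) ⟨by linarith, by linarith⟩
  refine ⟨t, ht.1, ?_⟩
  simp only [detector, mem_ofPred_eq]
  rw [hX0 t ht.1, hYt, cosT_coe, hn]
  have : Real.cos (2 * π * ((n : ℝ) + 1 / 2) + (0 : ℕ) * (π / 2)) = -1 := by
    have h2 : 2 * π * ((n : ℝ) + 1 / 2) + (0 : ℕ) * (π / 2) = n * (2 * π) + π := by
      push_cast; ring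
    rw [h2]
    exact Real.cos_int_mul_two_pi_add_pi n
  rw [this]
  norm_num

end Vale.Agent.P113
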